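import Vale.Agent.P287.H100.Model

/-!
Every nondegenerate quadratic form in four variables is similar to some `⟨1, -δα, -δβ, δαβ⟩`, and
every nondegenerate isotropic quadratic form in six variables is similar to some
`⟨1, -δα, -δβ, δαβ⟩ ⊥ H`.
-/

open Module QuadraticMap

namespace Vale.Agent.P287.H100

variable {K : Type*} [Field K] {V : Type*} [AddCommGroup V] [Module K V]

/-- rescale the last coordinate -/
def scaleLast (d : Kˣ) : (Fin 4 → K) ≃ₗ[K] (Fin 4 → K) :=
  LinearEquiv.piCongrRight fun i => LinearEquiv.smulOfUnit (if i = 3 then d else 1)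

lemma exists_q0_diag (w : Fin 4 → Kˣ) : ∃ l δ α β : K, l ≠ 0 ∧ δ ≠ 0 ∧ α ≠ 0 ∧ β ≠ 0 ∧
    ∃ τ : (Fin 4 → K) ≃ₗ[K] (Fin 4 → K), ∀ v, ∑ i, (w i : K) * (v i * v i) =
      l * q0 δ α β (τ v) := by
  have h0 := (w 0).ne_zero
  have h1 := (w 1).ne_zero
  have h2 := (w 2).ne_zero
  have h3 := (w 3).ne_zero
  refine ⟨w 0, (w 1 * w 2 * w 3) / (w 0 ^ 3), -(w 0 ^ 2 / (w 2 * w 3)), -(w 0 ^ 2 / (w 1 * w 3)),
    h0, ?_, ?_, ?_, scaleLast (w 3 / w 0), ?_⟩
  · exact div_ne_zero (mul_ne_zero (mul_ne_zero h1 h2) h3) (pow_ne_zero 3 h0)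
  · exact neg_ne_zero.mpr (div_ne_zero (pow_ne_zero 2 h0) (mul_ne_zero h2 h3))
  · exact neg_ne_zero.mpr (div_ne_zero (pow_ne_zero 2 h0) (mul_ne_zero h1 h3))
  · intro v
    have e0 : scaleLast (w 3 / w 0) v 0 = v 0 := one_smul Kˣ (v 0)
    have e1 : scaleLast (w 3 / w 0) v 1 = v 1 := one_smul Kˣ (v 1)
    have e2 : scaleLast (w 3 / w 0) v 2 = v 2 := one_smul Kˣ (v 2)
    have e3 : scaleLast (w 3 / w 0) v 3 = (w 3 : K) / w 0 * v 3 := by
      change (w 3 / w 0) • v 3 = _
      rw [Units.smul_def, Units.val_div_eq_div_val, smul_eq_mul]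
    rw [q0, e0, e1, e2, e3, Fin.sum_univ_four]
    field_simp
    ring

theorem exists_four [FiniteDimensional K V] [Invertible (2 : K)] (Q : QuadraticForm K V)
    (hd : finrank K V = 4)
    (hQ : (associated (R := K) Q).SeparatingLeft) :
    ∃ l δ α β : K, l ≠ 0 ∧ δ ≠ 0 ∧ α ≠ 0 ∧ β ≠ 0 ∧
      ∃ e : V ≃ₗ[K] (Fin 4 → K), ∀ v, Q v = l * q0 δ α β (e v) := by
  obtain ⟨w, ⟨φ⟩⟩ := QuadraticForm.equivalent_weightedSumSquares_units_of_nondegenerate' Q hQ
  let c : Fin 4 ≃ Fin (finrank K V) := finCongr hd.symm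
  obtain ⟨l, δ, α, β, hl, hδ, hα, hβ, τ, hτ⟩ := exists_q0_diag (fun i => w (c i))
  refine ⟨l, δ, α, β, hl, hδ, hα, hβ,
    (φ.toLinearEquiv.trans (LinearEquiv.funCongrLeft K K c)).trans τ, ?_⟩
  intro v
  rw [LinearEquiv.trans_apply, ← hτ, ← φ.map_app v, QuadraticMap.weightedSumSquares_apply]
  rw [← Equiv.sum_comp c]
  rfl

/-- the orthogonal complement of two vectors -/
def perp (B : LinearMap.BilinForm K V) (x y : V) : Submodule K V :=
  LinearMap.ker (B x) ⊓ LinearMap.ker (B y)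

/-- the splitting -/
noncomputable def splitEquiv (B : LinearMap.BilinForm K V) (hB : ∀ u v, B u v = B v u) (x y : V)
    (hxx : B x x = 0) (hyy : B y y = 0) (hxy : B x y = 1) : V ≃ₗ[K] (perp B x y × K × K) where
  toFun m := (⟨m - (B y m) • x - (B x m) • y, by
    have hyx : B y x = 1 := by rw [hB, hxy]
    constructor
    · simp [hxx, hxy]
    · simp [hyx, hyy]⟩, B y m, B x m)
  map_add' m n := by
    ext
    · simp only [map_add, Prod.fst_add, Submodule.coe_add]
      module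
    · simp
    · simp
  map_smul' c m := by
    ext
    · simp only [map_smul, Prod.smul_fst, SetLike.val_smul, RingHom.id_apply, smul_eq_mul]
      module
    · simp
    · simp
  invFun p := (p.1 : V) + p.2.1 • x + p.2.2 • y
  left_inv m := by
    simp only
    module
  right_inv p := by
    obtain ⟨⟨w, hw⟩, a, b⟩ := p
    have hw1 : B x w = 0 := hw.1
    have hw2 : B y w = 0 := hw.2
    have hyx : B y x = 1 := by rw [hB, hxy]
    have e1 : B y (w + a • x + b • y) = a := by simp [hw2, hyx, hyy]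
    have e2 : B x (w + a • x + b • y) = b := by simp [hw1, hxx, hxy]
    ext
    · simp only [e1, e2]
      module
    · exact e1
    · exact e2

lemma finrank_perp [FiniteDimensional K V] (B : LinearMap.BilinForm K V)
    (hB : ∀ u v, B u v = B v u) (x y : V) (hxx : B x x = 0) (hyy : B y y = 0)
    (hxy : B x y = 1) (n : ℕ) (hn : finrank K V = n + 2) : finrank K (perp B x y) = n := by
  have h1 := (splitEquiv B hB x y hxx hyy hxy).finrank_eq
  rw [Module.finrank_prod, Module.finrank_prod, finrank_self, hn] at h1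
  omega

theorem exists_six [FiniteDimensional K V] [Invertible (2 : K)] (Q : QuadraticForm K V)
    (hd : finrank K V = 6)
    (hQ : (associated (R := K) Q).SeparatingLeft) (x : V) (hx : x ≠ 0) (hQx : Q x = 0) :
    ∃ l δ α β : K, l ≠ 0 ∧ δ ≠ 0 ∧ α ≠ 0 ∧ β ≠ 0 ∧
      ∃ e : V ≃ₗ[K] ((Fin 4 → K) × K × K),
        ∀ v, Q v = l * (q0 δ α β (e v).1 + (e v).2.1 * (e v).2.2) := by
  have h2 : (2 : K) ≠ 0 := (isUnit_of_invertible (2 : K)).ne_zero
  set B : LinearMap.BilinForm K V := associated (R := K) Q with hBdef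
  have hB : ∀ u v, B u v = B v u := fun u v => by
    rw [hBdef]
    exact associated_isSymm K Q u v
  have hBQ : ∀ v, B v v = Q v := fun v => associated_eq_self_apply K Q v
  obtain ⟨y, hy⟩ : ∃ y, B x y ≠ 0 := by
    by_contra hcon
    push Not at hcon
    exact hx (hQ x hcon)
  let y1 : V := (B x y)⁻¹ • y
  have hxy1 : B x y1 = 1 := by
    simp [y1, inv_mul_cancel₀ hy]
  have hxx : B x x = 0 := by rw [hBQ, hQx]
  let y2 : V := y1 - ((B y1 y1) / 2) • x
  have hxy2 : B x y2 = 1 := by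
    simp [y2, hxx, hxy1]
  have hyy2 : B y2 y2 = 0 := by
    have hyx1 : B y1 x = 1 := by rw [hB, hxy1]
    simp only [y2, map_sub, map_smul, LinearMap.sub_apply, LinearMap.smul_apply, hxx, hxy1, hyx1,
      smul_eq_mul, mul_one, mul_zero, sub_zero]
    field_simp
    ring
  clear_value y2
  let e := splitEquiv B hB x y2 hxx hyy2 hxy2
  -- the form on the complement
  let W := perp B x y2
  have hW : finrank K W = 4 := finrank_perp B hB x y2 hxx hyy2 hxy2 4 hd
  let QW : QuadraticForm K W := Q.comp W.subtype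
  have hassoc : ∀ u v : W, associated (R := K) QW u v = B u v := by
    intro u v
    rw [hBdef, associated_apply, associated_apply]
    rfl
  have hQW : (associated (R := K) QW).SeparatingLeft := by
    intro u hu
    have h1 : ∀ m : V, B u m = 0 := by
      intro m
      obtain ⟨p, rfl⟩ := e.symm.surjective m
      have h3 : e.symm p = (p.1 : V) + p.2.1 • x + p.2.2 • y2 := rfl
      have h4 : B u x = 0 := by rw [hB]; exact u.2.1
      have h5 : B u y2 = 0 := by rw [hB]; exact u.2.2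
      have h6 : B u (p.1 : V) = 0 := by rw [← hassoc]; exact hu p.1
      rw [h3]
      simp [h4, h5, h6]
    exact Subtype.ext (hQ _ h1)
  obtain ⟨l, δ, α, β, hl, hδ, hα, hβ, e4, he4⟩ := exists_four QW hW hQW
  have hval : ∀ p : W × K × K, Q (e.symm p) = QW p.1 + 2 * p.2.1 * p.2.2 := by
    intro p
    have h3 : e.symm p = (p.1 : V) + p.2.1 • x + p.2.2 • y2 := rfl
    have h4 : B p.1 x = 0 := by rw [hB]; exact p.1.2.1
    have h5 : B p.1 y2 = 0 := by rw [hB]; exact p.1.2.2
    have h4' : B x p.1 = 0 := p.1.2.1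
    have h5' : B y2 p.1 = 0 := p.1.2.2
    have h6 : B y2 x = 1 := by rw [hB, hxy2]
    have h7 : QW p.1 = B p.1 p.1 := (hBQ _).symm
    rw [← hBQ, h3, h7]
    simp only [map_add, map_smul, LinearMap.add_apply, LinearMap.smul_apply, h4, h5, h4', h5', h6,
      hxx, hyy2, hxy2, smul_eq_mul]
    ring
  refine ⟨l, δ, α, β, hl, hδ, hα, hβ, e.trans (LinearEquiv.prodCongr e4
    (LinearEquiv.prodCongr (LinearEquiv.smulOfNeZero K K (2 / l) (div_ne_zero h2 hl))
      (LinearEquiv.refl K K))), ?_⟩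
  intro v
  obtain ⟨p, rfl⟩ := e.symm.surjective v
  rw [hval, he4]
  simp only [LinearEquiv.trans_apply, LinearEquiv.apply_symm_apply, LinearEquiv.prodCongr_apply,
    LinearEquiv.refl_apply, LinearEquiv.smulOfNeZero_apply, smul_eq_mul]
  field_simp

end Vale.Agent.P287.H100
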