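import Mathlib

/-!
The dimension of the even Clifford algebra.
-/

open Module CliffordAlgebra

namespace Vale.Agent.P287.H100

variable {K : Type*} [Field K] {M : Type*} [AddCommGroup M] [Module K M] [FiniteDimensional K M]

lemma finite_clifford (h2 : (2 : K) ≠ 0) (Q : QuadraticForm K M) :
    FiniteDimensional K (CliffordAlgebra Q) := by
  have : Invertible (2 : K) := invertibleOfNonzero h2
  have : Module.Finite K (ExteriorAlgebra K M) :=
    Module.Finite.of_basis (Module.finBasis K M).ExteriorAlgebra
  exact Module.Finite.equiv (equivExterior Q).symm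

lemma finrank_clifford (h2 : (2 : K) ≠ 0) (Q : QuadraticForm K M) :
    finrank K (CliffordAlgebra Q) = 2 ^ finrank K M := by
  have : Invertible (2 : K) := invertibleOfNonzero h2
  rw [(equivExterior Q).finrank_eq, finrank_eq_card_basis (Module.finBasis K M).ExteriorAlgebra,
    Fintype.card_finset, Fintype.card_fin]

/-- multiplication by a vector -/
def mulVec (Q : QuadraticForm K M) (v : M) (i : ZMod 2) :
    evenOdd Q i →ₗ[K] evenOdd Q (1 + i) :=
  ((LinearMap.mulLeft K (ι Q v)).comp (evenOdd Q i).subtype).codRestrict _ (fun x =>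
    SetLike.mul_mem_graded (ι_mem_evenOdd_one Q v) x.2)

omit [FiniteDimensional K M] in
lemma mulVec_injective (Q : QuadraticForm K M) (v : M) (hv : Q v ≠ 0) (i : ZMod 2) :
    Function.Injective (mulVec Q v i) := by
  rw [injective_iff_map_eq_zero]
  intro x hx
  have h1 : ι Q v * (x : CliffordAlgebra Q) = 0 := congrArg Subtype.val hx
  have h2 : ι Q v * (ι Q v * (x : CliffordAlgebra Q)) = 0 := by rw [h1, mul_zero]
  rw [← mul_assoc, ι_sq_scalar, ← Algebra.smul_def] at h2
  exact Subtype.ext ((smul_eq_zero.mp h2).resolve_left hv)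

theorem finrank_even (h2 : (2 : K) ≠ 0) (Q : QuadraticForm K M) (v : M) (hv : Q v ≠ 0) {n : ℕ}
    (hn : finrank K M = n + 1) : finrank K (even Q) = 2 ^ n := by
  have := finite_clifford h2 Q
  have e1 := LinearMap.finrank_le_finrank_of_injective (mulVec_injective Q v hv 0)
  have e2 := LinearMap.finrank_le_finrank_of_injective (mulVec_injective Q v hv 1)
  have e3 : finrank K (evenOdd Q 0) + finrank K (evenOdd Q 1) = finrank K (CliffordAlgebra Q) :=
    Submodule.finrank_add_eq_of_isCompl (evenOdd_isCompl Q)
  have h01 : (1 : ZMod 2) + 0 = 1 := by decide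
  have h11 : (1 : ZMod 2) + 1 = 0 := by decide
  rw [h01] at e1
  rw [h11] at e2
  rw [finrank_clifford h2, hn, pow_succ] at e3
  have e4 : finrank K (even Q) = finrank K (evenOdd Q 0) := rfl
  omega

lemma finite_even (h2 : (2 : K) ≠ 0) (Q : QuadraticForm K M) :
    FiniteDimensional K (even Q) := by
  have := finite_clifford h2 Q
  exact inferInstanceAs (FiniteDimensional K (even Q).toSubmodule)

omit [FiniteDimensional K M] in
lemma algEquiv_of_surjective {A B : Type*} [Ring A] [Ring B] [Algebra K A] [Algebra K B]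
    [FiniteDimensional K A] [FiniteDimensional K B] (f : A →ₐ[K] B) (hs : Function.Surjective f)
    (h : finrank K A = finrank K B) : Nonempty (A ≃ₐ[K] B) :=
  ⟨AlgEquiv.ofBijective f ⟨(LinearMap.injective_iff_surjective_of_finrank_eq_finrank
    (f := f.toLinearMap) h).mpr hs, hs⟩⟩

end Vale.Agent.P287.H100
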