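import Vale.Agent.P287.H100.Gen
import Vale.Agent.P287.H100.EvenDim

/-!
The even Clifford algebra of a four-dimensional form similar to `⟨1, -δα, -δβ, δαβ⟩` is the
quaternion algebra `(α, β)` over `K(√δ)`.
-/

open Module CliffordAlgebra

namespace Vale.Agent.P287.H100

variable {K : Type*} [Field K] {δ α β : K} {M : Type*} [AddCommGroup M] [Module K M]

/-- the bilinear map `(m, n) ↦ l m n̄` -/
def evenHomFour (Q : QuadraticForm K M) (l : K) (e : M ≃ₗ[K] (Fin 4 → K))
    (hQ : ∀ m, Q m = l * q0 δ α β (e m)) : EvenHom Q (Hf δ α β) where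
  bilin := LinearMap.mk₂ K (fun m n => l • (vec δ α β (e m) * star (vec δ α β (e n))))
    (fun a b c => by rw [map_add, map_add, add_mul, smul_add])
    (fun c a b => by rw [map_smul, map_smul, smul_mul_assoc, smul_comm])
    (fun a b c => by rw [map_add, map_add, star_add, mul_add, smul_add])
    (fun c a b => by
      have h : star (c • vec δ α β (e b)) = c • star (vec δ α β (e b)) :=
        QuaternionAlgebra.star_smul _ _
      rw [map_smul, map_smul, h, mul_smul_comm, smul_comm])
  contract m := by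
    rw [LinearMap.mk₂_apply, vec_mul_star, hQ, map_mul, Algebra.smul_def]
  contract_mid a b c := by
    simp only [LinearMap.mk₂_apply]
    rw [smul_mul_smul_comm, ← mul_assoc, mul_assoc (vec δ α β (e a)), star_mul_vec,
      ← Algebra.commutes, mul_assoc, ← Algebra.smul_def, hQ, smul_smul, smul_smul]
    congr 1
    ring

theorem exists_even_four (h2 : (2 : K) ≠ 0) (hδ : δ ≠ 0) (hα : α ≠ 0) (hβ : β ≠ 0)
    (Q : QuadraticForm K M) {l : K} (hl : l ≠ 0) (e : M ≃ₗ[K] (Fin 4 → K))
    (hQ : ∀ m, Q m = l * q0 δ α β (e m)) : Nonempty (even Q ≃ₐ[K] Hf δ α β) := by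
  have : FiniteDimensional K M := Module.Finite.equiv e.symm
  let f : even Q →ₐ[K] Hf δ α β := even.lift Q (evenHomFour Q l e hQ)
  have hf : ∀ m n, f ((even.ι Q).bilin m n) = l • (vec δ α β (e m) * star (vec δ α β (e n))) :=
    fun m n => even.lift_ι _ _ _ _
  have hs : Function.Surjective f := by
    rw [← AlgHom.range_eq_top]
    apply eq_top_of_vec hδ hα hβ
    intro v
    have h1 : f ((even.ι Q).bilin (e.symm v) (e.symm (Pi.single 0 1))) ∈ f.range := ⟨_, rfl⟩
    rw [hf, e.apply_symm_apply, e.apply_symm_apply, vec_zero', star_one, mul_one] at h1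
    have h3 := f.range.smul_mem h1 l⁻¹
    rwa [smul_smul, inv_mul_cancel₀ hl, one_smul] at h3
  have hM : finrank K M = 3 + 1 := by
    rw [e.finrank_eq]
    simp
  have hv : Q (e.symm (Pi.single 0 1)) ≠ 0 := by
    rw [hQ, e.apply_symm_apply]
    simpa [q0] using hl
  have : FiniteDimensional K (even Q) := finite_even h2 Q
  have hdim : finrank K (even Q) = finrank K (Hf δ α β) := by
    rw [finrank_even h2 Q _ hv hM, finrank_hf]
    norm_num
  have hi : Function.Injective f :=
    (LinearMap.injective_iff_surjective_of_finrank_eq_finrank (f := f.toLinearMap) hdim).mpr hs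
  exact ⟨AlgEquiv.ofBijective f ⟨hi, hs⟩⟩

end Vale.Agent.P287.H100
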