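import Vale.Agent.P287.H100.Gen
import Vale.Agent.P287.H100.EvenDim

/-!
The even Clifford algebra of `⟨1, -δα, -δβ, δαβ⟩ ⊥ H` is the algebra of two by two matrices over the
quaternion algebra `(α, β)` over `K(√δ)`.
-/

open Module CliffordAlgebra Matrix

namespace Vale.Agent.P287.H100

variable {K : Type*} [Field K] {δ α β : K} {M : Type*} [AddCommGroup M] [Module K M]

/-- the matrix `(a, v; -v̄, b)` -/
def mat (δ α β : K) : ((Fin 4 → K) × K × K) →ₗ[K] Matrix (Fin 2) (Fin 2) (Hf δ α β) where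
  toFun x := !![algebraMap K _ x.2.1, vec δ α β x.1; - star (vec δ α β x.1), algebraMap K _ x.2.2]
  map_add' x y := by
    ext1 i j
    fin_cases i <;> fin_cases j
    · simp
    · simp
    · simp
      abel
    · simp
  map_smul' c x := by
    have h : star (c • vec δ α β x.1) = c • star (vec δ α β x.1) := QuaternionAlgebra.star_smul _ _
    ext1 i j
    fin_cases i <;> fin_cases j
    · simp [Algebra.smul_def]
    · simp
    · simp [h]
    · simp [Algebra.smul_def]

/-- the matrix `(b, -v; v̄, a)` -/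
def sharp (δ α β : K) : ((Fin 4 → K) × K × K) →ₗ[K] Matrix (Fin 2) (Fin 2) (Hf δ α β) where
  toFun x := !![algebraMap K _ x.2.2, - vec δ α β x.1; star (vec δ α β x.1), algebraMap K _ x.2.1]
  map_add' x y := by
    ext1 i j
    fin_cases i <;> fin_cases j
    · simp
    · simp
      abel
    · simp
    · simp
  map_smul' c x := by
    have h : star (c • vec δ α β x.1) = c • star (vec δ α β x.1) := QuaternionAlgebra.star_smul _ _
    ext1 i j
    fin_cases i <;> fin_cases j
    · simp [Algebra.smul_def]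
    · simp
    · simp [h]
    · simp [Algebra.smul_def]

lemma mat_apply (x : (Fin 4 → K) × K × K) : mat δ α β x =
    !![algebraMap K _ x.2.1, vec δ α β x.1; - star (vec δ α β x.1), algebraMap K _ x.2.2] := rfl

lemma sharp_apply (x : (Fin 4 → K) × K × K) : sharp δ α β x =
    !![algebraMap K _ x.2.2, - vec δ α β x.1; star (vec δ α β x.1), algebraMap K _ x.2.1] := rfl

lemma mat_mul_sharp (x : (Fin 4 → K) × K × K) :
    mat δ α β x * sharp δ α β x = algebraMap K _ (q0 δ α β x.1 + x.2.1 * x.2.2) := by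
  rw [mat_apply, sharp_apply,
    Algebra.algebraMap_eq_smul_one (A := Matrix (Fin 2) (Fin 2) (Hf δ α β))]
  ext1 i j
  fin_cases i <;> fin_cases j
  · simp [Matrix.mul_apply, vec_mul_star, Algebra.smul_def]
    abel
  · simp [Matrix.mul_apply, Algebra.commutes]
  · simp [Matrix.mul_apply, Algebra.commutes]
  · simp [Matrix.mul_apply, star_mul_vec, Algebra.smul_def]
    rw [← map_mul, ← map_mul, mul_comm]

lemma sharp_mul_mat (x : (Fin 4 → K) × K × K) :
    sharp δ α β x * mat δ α β x = algebraMap K _ (q0 δ α β x.1 + x.2.1 * x.2.2) := by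
  rw [mat_apply, sharp_apply,
    Algebra.algebraMap_eq_smul_one (A := Matrix (Fin 2) (Fin 2) (Hf δ α β))]
  ext1 i j
  fin_cases i <;> fin_cases j
  · simp [Matrix.mul_apply, vec_mul_star, Algebra.smul_def]
    rw [← map_mul, ← map_mul, mul_comm]
    abel
  · simp [Matrix.mul_apply, Algebra.commutes]
  · simp [Matrix.mul_apply, Algebra.commutes]
  · simp [Matrix.mul_apply, star_mul_vec, Algebra.smul_def]

/-- the bilinear map `(m, n) ↦ l m n♯` -/
def bilSix (δ α β l : K) (e : M ≃ₗ[K] ((Fin 4 → K) × K × K)) :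
    M →ₗ[K] M →ₗ[K] Matrix (Fin 2) (Fin 2) (Hf δ α β) :=
  LinearMap.mk₂ K (fun m n => l • (mat δ α β (e m) * sharp δ α β (e n)))
    (fun a b c => by rw [map_add, map_add, add_mul, smul_add])
    (fun c a b => by rw [map_smul, map_smul, smul_mul_assoc, smul_comm])
    (fun a b c => by rw [map_add, map_add, mul_add, smul_add])
    (fun c a b => by rw [map_smul, map_smul, mul_smul_comm, smul_comm])

lemma bilSix_apply (l : K) (e : M ≃ₗ[K] ((Fin 4 → K) × K × K)) (m n : M) :
    bilSix δ α β l e m n = l • (mat δ α β (e m) * sharp δ α β (e n)) := by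
  rw [bilSix, LinearMap.mk₂_apply]

/-- the corresponding `EvenHom` -/
def evenHomSix (Q : QuadraticForm K M) (l : K) (e : M ≃ₗ[K] ((Fin 4 → K) × K × K))
    (hQ : ∀ m, Q m = l * (q0 δ α β (e m).1 + (e m).2.1 * (e m).2.2)) :
    EvenHom Q (Matrix (Fin 2) (Fin 2) (Hf δ α β)) where
  bilin := bilSix δ α β l e
  contract m := by
    rw [bilSix_apply, mat_mul_sharp, hQ, map_mul, Algebra.smul_def]
  contract_mid a b c := by
    simp only [bilSix_apply]
    rw [smul_mul_smul_comm, ← mul_assoc, mul_assoc (mat δ α β (e a)), sharp_mul_mat,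
      ← Algebra.commutes, mul_assoc, ← Algebra.smul_def, hQ, smul_smul, smul_smul]
    congr 1
    ring

/-- the elements `x` such that the matrix `x E₀₀` is in `S` -/
def corner (S : Subalgebra K (Matrix (Fin 2) (Fin 2) (Hf δ α β)))
    (h : Matrix.single 0 0 (1 : Hf δ α β) ∈ S) : Subalgebra K (Hf δ α β) where
  carrier := {x | Matrix.single 0 0 x ∈ S}
  mul_mem' {x y} hx hy := by
    have := S.mul_mem hx hy
    rwa [Matrix.single_mul_single_same] at this
  add_mem' {x y} hx hy := by
    have := S.add_mem hx hy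
    rwa [← Matrix.single_add] at this
  algebraMap_mem' r := by
    have := S.smul_mem h r
    rwa [Matrix.smul_single, ← Algebra.algebraMap_eq_smul_one] at this

theorem eq_top_of_mat (hδ : δ ≠ 0) (hα : α ≠ 0) (hβ : β ≠ 0)
    (S : Subalgebra K (Matrix (Fin 2) (Fin 2) (Hf δ α β)))
    (hS : ∀ x y, mat δ α β x * sharp δ α β y ∈ S) : S = ⊤ := by
  have h00 : Matrix.single 0 0 (1 : Hf δ α β) ∈ S := by
    have h1 := hS (0, 1, 0) (0, 0, 1)
    have h2 : mat δ α β (0, 1, 0) * sharp δ α β (0, 0, 1) = Matrix.single 0 0 (1 : Hf δ α β) := by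
      rw [mat_apply, sharp_apply]
      ext1 i j
      fin_cases i <;> fin_cases j <;> simp [Matrix.mul_apply]
    rwa [h2] at h1
  have h01 : ∀ v, Matrix.single 0 1 (vec δ α β v) ∈ S := by
    intro v
    have h1 := hS (v, 0, 0) (0, 1, 0)
    have h2 : mat δ α β (v, 0, 0) * sharp δ α β (0, 1, 0) = Matrix.single 0 1 (vec δ α β v) := by
      rw [mat_apply, sharp_apply]
      ext1 i j
      fin_cases i <;> fin_cases j <;> simp [Matrix.mul_apply]
    rwa [h2] at h1
  have h10 : Matrix.single 1 0 (1 : Hf δ α β) ∈ S := by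
    have h1 := S.neg_mem (hS (Pi.single 0 1, 0, 0) (0, 0, 1))
    have h2 : -(mat δ α β (Pi.single 0 1, 0, 0) * sharp δ α β (0, 0, 1)) =
        Matrix.single 1 0 (1 : Hf δ α β) := by
      rw [mat_apply, sharp_apply]
      ext1 i j
      fin_cases i <;> fin_cases j <;> simp [vec_zero']
    rwa [h2] at h1
  have h01' : Matrix.single 0 1 (1 : Hf δ α β) ∈ S := by
    have := h01 (Pi.single 0 1)
    rwa [vec_zero'] at this
  have hT := eq_top_of_vec hδ hα hβ (corner S h00) (by
    intro v
    have h1 := S.mul_mem (h01 v) h10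
    rw [Matrix.single_mul_single_same, mul_one] at h1
    exact h1)
  have h00' : ∀ x, Matrix.single 0 0 x ∈ S := by
    intro x
    have : x ∈ corner S h00 := by rw [hT]; trivial
    exact this
  have hall : ∀ i j x, Matrix.single i j x ∈ S := by
    intro i j x
    fin_cases i <;> fin_cases j
    · exact h00' x
    · have := S.mul_mem (h00' x) h01'
      rwa [Matrix.single_mul_single_same, mul_one] at this
    · have := S.mul_mem h10 (h00' x)
      rwa [Matrix.single_mul_single_same, one_mul] at this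
    · have := S.mul_mem (S.mul_mem h10 (h00' x)) h01'
      rwa [Matrix.single_mul_single_same, one_mul, Matrix.single_mul_single_same, mul_one] at this
  rw [eq_top_iff]
  intro x _
  rw [Matrix.matrix_eq_sum_single x]
  exact S.sum_mem fun i _ => S.sum_mem fun j _ => hall i j _

lemma finrank_mat : finrank K (Matrix (Fin 2) (Fin 2) (Hf δ α β)) = 32 := by
  rw [Module.finrank_matrix, finrank_hf]
  norm_num

instance : FiniteDimensional K (Matrix (Fin 2) (Fin 2) (Hf δ α β)) :=
  Module.Finite.matrix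

/-- the homomorphism from the even Clifford algebra -/
noncomputable def evenMapSix (Q : QuadraticForm K M) (l : K) (e : M ≃ₗ[K] ((Fin 4 → K) × K × K))
    (hQ : ∀ m, Q m = l * (q0 δ α β (e m).1 + (e m).2.1 * (e m).2.2)) :
    even Q →ₐ[K] Matrix (Fin 2) (Fin 2) (Hf δ α β) :=
  even.lift Q (evenHomSix Q l e hQ)

lemma evenMapSix_apply (Q : QuadraticForm K M) (l : K) (e : M ≃ₗ[K] ((Fin 4 → K) × K × K))
    (hQ : ∀ m, Q m = l * (q0 δ α β (e m).1 + (e m).2.1 * (e m).2.2)) (m n : M) :
    evenMapSix Q l e hQ ((even.ι Q).bilin m n) = bilSix δ α β l e m n := by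
  exact even.lift_ι Q (evenHomSix Q l e hQ) m n

lemma mem_of_smul_mem {A : Type*} [Ring A] [Algebra K A] (S : Subalgebra K A) {l : K} (hl : l ≠ 0)
    (x : A) (h : l • x ∈ S) : x ∈ S := by
  have h3 := S.smul_mem h l⁻¹
  rwa [smul_smul, inv_mul_cancel₀ hl, one_smul] at h3

lemma mem_range_evenMapSix (Q : QuadraticForm K M) {l : K}
    (hl : l ≠ 0) (e : M ≃ₗ[K] ((Fin 4 → K) × K × K))
    (hQ : ∀ m, Q m = l * (q0 δ α β (e m).1 + (e m).2.1 * (e m).2.2)) (m n : M) :
    mat δ α β (e m) * sharp δ α β (e n) ∈ (evenMapSix Q l e hQ).range := by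
  apply mem_of_smul_mem _ hl
  rw [← bilSix_apply, ← evenMapSix_apply Q l e hQ]
  exact ⟨_, rfl⟩

lemma evenMapSix_surjective (hδ : δ ≠ 0) (hα : α ≠ 0) (hβ : β ≠ 0)
    (Q : QuadraticForm K M) {l : K} (hl : l ≠ 0) (e : M ≃ₗ[K] ((Fin 4 → K) × K × K))
    (hQ : ∀ m, Q m = l * (q0 δ α β (e m).1 + (e m).2.1 * (e m).2.2)) :
    Function.Surjective (evenMapSix Q l e hQ) := by
  rw [← AlgHom.range_eq_top]
  apply eq_top_of_mat hδ hα hβ
  intro x y
  have h1 := mem_range_evenMapSix Q hl e hQ (e.symm x) (e.symm y)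
  rwa [e.apply_symm_apply, e.apply_symm_apply] at h1

lemma finrank_even_six (h2 : (2 : K) ≠ 0)
    (Q : QuadraticForm K M) {l : K} (hl : l ≠ 0) (e : M ≃ₗ[K] ((Fin 4 → K) × K × K))
    (hQ : ∀ m, Q m = l * (q0 δ α β (e m).1 + (e m).2.1 * (e m).2.2)) :
    finrank K (even Q) = 32 := by
  have : FiniteDimensional K M := Module.Finite.equiv e.symm
  have hM : finrank K M = 5 + 1 := by
    rw [e.finrank_eq]
    simp
  have hv : Q (e.symm (Pi.single 0 1, 0, 0)) ≠ 0 := by
    rw [hQ, e.apply_symm_apply]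
    simpa [q0] using hl
  rw [finrank_even h2 Q _ hv hM]
  norm_num

theorem exists_even_six (h2 : (2 : K) ≠ 0) (hδ : δ ≠ 0) (hα : α ≠ 0) (hβ : β ≠ 0)
    (Q : QuadraticForm K M) {l : K} (hl : l ≠ 0) (e : M ≃ₗ[K] ((Fin 4 → K) × K × K))
    (hQ : ∀ m, Q m = l * (q0 δ α β (e m).1 + (e m).2.1 * (e m).2.2)) :
    Nonempty (even Q ≃ₐ[K] Matrix (Fin 2) (Fin 2) (Hf δ α β)) := by
  have : FiniteDimensional K M := Module.Finite.equiv e.symm
  have : FiniteDimensional K (even Q) := finite_even h2 Q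
  refine algEquiv_of_surjective (evenMapSix Q l e hQ)
    (evenMapSix_surjective hδ hα hβ Q hl e hQ) ?_
  rw [finrank_even_six h2 Q hl e hQ, finrank_mat]

end Vale.Agent.P287.H100
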