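import Vale.Agent.P287.H100.Main
import Vale.Agent.P287.Theta.IsoFinal

/-!
Smooth cubic fourfolds containing a plane whose even Clifford algebra is Morita equivalent to the
one of a net of quadratic forms in six variables.
-/

namespace Vale.Agent.P287.H100

open MvPolynomial Vale.Agent.P287 Vale.Agent.P287.H925 Vale.Agent.P287.H925.NetResult
  Vale.Agent.P287.Theta CliffordAlgebra

theorem rational_of_morita (M : Matrix (Fin 4) (Fin 4) (MvPolynomial (Fin 3) ℂ))
    (hdeg : ∀ i j, (M i j).IsHomogeneous (1 + wt i + wt j)) (hs : SmoothForm (cubicOf M))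
    (q : QuadraticForm RatK (Fin 4 → RatK))
    (hq : ∀ v, q v = dotProduct v ((M.map (aeval tvec : P3 →ₐ[ℂ] RatK)).mulVec v))
    (Q : Fin 3 → Matrix (Fin 6) (Fin 6) ℂ) (N : QuadraticForm RatK (Fin 6 → RatK))
    (hN : ∀ w, N w = net Q tvec w)
    (h : IsMoritaEquivalent RatK (even q) (even N)) : RationalHypersurface (cubicOf M) := by
  classical
  have hchar : CharZero RatK := charZero_of_injective_algebraMap (algebraMap ℂ RatK).injective
  have : Invertible (2 : RatK) := invertibleOfNonzero two_ne_zero
  by_cases han : q.Anisotropic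
  · obtain ⟨x, hx, hQx⟩ := exists_base_point Q
    have hx0 : cst RatK x ≠ 0 := by
      intro h0
      apply hx
      funext i
      have := congrFun h0 i
      exact (map_eq_zero (algebraMap ℂ RatK)).mp this
    have hNx : N (cst RatK x) = 0 := by
      rw [hN, net]
      refine Finset.sum_eq_zero fun k _ => ?_
      rw [qf_cst, hQx, map_zero, mul_zero]
    obtain ⟨l, hl, φ, hφ⟩ := similar_of_morita (by simp) (by simp) q N han (cst RatK x) hx0 hNx h
    refine net_result (cubicOf M) (cubicOf_homogeneous M hdeg) hs (qM M)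
      (fun w => by rw [qM_apply, aeval_wvec_cubicOf M hdeg]) Q ?_
    let τ : (Fin 4 → RatK) ≃ₗ[RatK] (Fin 4 → RatK) := LinearEquiv.funCongrLeft RatK RatK perm4
    refine ⟨l, hl, (LinearEquiv.prodCongr τ (LinearEquiv.refl RatK (RatK × RatK))).trans φ, ?_⟩
    intro v a b
    have h1 : ((LinearEquiv.prodCongr τ (LinearEquiv.refl RatK (RatK × RatK))).trans φ)
        (v, a, b) = φ (v ∘ perm4, a, b) := rfl
    rw [h1, ← hN, hφ, qM_apply, hq]
  · rw [QuadraticMap.Anisotropic] at han
    push Not at han
    obtain ⟨v, hv, hv0⟩ := han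
    rw [hq] at hv
    exact rational_of_isotropic_matrix M hdeg hs v hv0 hv

end Vale.Agent.P287.H100
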