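import Vale.Agent.P287.H100.Model

/-!
Generators and dimension of the quaternion algebra over `K(√δ)`.
-/

open Module

namespace Vale.Agent.P287.H100

variable {K : Type*} [Field K] {δ α β : K}

/-- the quaternion `i` -/
def qI (δ α β : K) : Hf δ α β := ⟨0, 1, 0, 0⟩
/-- the quaternion `j` -/
def qJ (δ α β : K) : Hf δ α β := ⟨0, 0, 1, 0⟩
/-- the quaternion `k` -/
def qK (δ α β : K) : Hf δ α β := ⟨0, 0, 0, 1⟩
/-- the central element `√δ` -/
def qO (δ α β : K) : Hf δ α β := ⟨om δ, 0, 0, 0⟩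

/-- central elements -/
def cen (δ α β : K) (z : Zf δ) : Hf δ α β := ⟨z, 0, 0, 0⟩

lemma cen_mul (z : Zf δ) (x : Hf δ α β) :
    cen δ α β z * x = ⟨z * x.re, z * x.imI, z * x.imJ, z * x.imK⟩ := by
  apply QuaternionAlgebra.ext <;> simp [cen]

lemma mul_cen (z : Zf δ) (x : Hf δ α β) : x * cen δ α β z = cen δ α β z * x := by
  rw [cen_mul]
  apply QuaternionAlgebra.ext <;> simp [cen, mul_comm]

lemma cen_eq (z : Zf δ) :
    cen δ α β z = algebraMap K _ z.re + algebraMap K _ z.im * qO δ α β := by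
  rw [algebraMap_hf, algebraMap_hf]
  apply QuaternionAlgebra.ext
  · simp only [cen, qO, QuaternionAlgebra.re_add, QuaternionAlgebra.mk_mul_mk, mul_zero, sub_zero,
      add_zero]
    exact zf_eta z
  · simp [cen, qO]
  · simp [cen, qO]
  · simp [cen, qO]

lemma hf_eta (x : Hf δ α β) :
    x = cen δ α β x.re + cen δ α β x.imI * qI δ α β + cen δ α β x.imJ * qJ δ α β +
      cen δ α β x.imK * qK δ α β := by
  simp only [cen_mul]
  apply QuaternionAlgebra.ext <;> simp [cen, qI, qJ, qK]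

lemma qI_mul_qI : qI δ α β * qI δ α β = algebraMap K _ α := by
  rw [algebraMap_hf]
  apply QuaternionAlgebra.ext <;> simp [qI, cf]

lemma qJ_mul_qJ : qJ δ α β * qJ δ α β = algebraMap K _ β := by
  rw [algebraMap_hf]
  apply QuaternionAlgebra.ext <;> simp [qJ, cf]

lemma qK_mul_qK : qK δ α β * qK δ α β = algebraMap K _ (-(α * β)) := by
  rw [algebraMap_hf]
  apply QuaternionAlgebra.ext <;> simp [qK, cf]

lemma qO_mul_qO : qO δ α β * qO δ α β = algebraMap K _ δ := by
  rw [algebraMap_hf]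
  apply QuaternionAlgebra.ext <;> simp [qO, om_mul_om]

lemma qI_mul_qJ : qI δ α β * qJ δ α β = qK δ α β := by
  apply QuaternionAlgebra.ext <;> simp [qI, qJ, qK]

lemma qJ_mul_qI : qJ δ α β * qI δ α β = - qK δ α β := by
  apply QuaternionAlgebra.ext <;> simp [qI, qJ, qK]

lemma qI_mul_qK : qI δ α β * qK δ α β = algebraMap K _ α * qJ δ α β := by
  rw [algebraMap_hf]
  apply QuaternionAlgebra.ext <;> simp [qI, qJ, qK, cf]

lemma qJ_mul_qK : qJ δ α β * qK δ α β = - (algebraMap K _ β * qI δ α β) := by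
  rw [algebraMap_hf]
  apply QuaternionAlgebra.ext <;> simp [qI, qJ, qK, cf]

lemma qK_mul_qJ : qK δ α β * qJ δ α β = algebraMap K _ β * qI δ α β := by
  rw [algebraMap_hf]
  apply QuaternionAlgebra.ext <;> simp [qI, qJ, qK, cf]

lemma qK_mul_qI : qK δ α β * qI δ α β = - (algebraMap K _ α * qJ δ α β) := by
  rw [algebraMap_hf]
  apply QuaternionAlgebra.ext <;> simp [qI, qJ, qK, cf]

lemma qO_comm (x : Hf δ α β) : x * qO δ α β = qO δ α β * x := mul_cen _ _

lemma vec_zero' : vec δ α β (Pi.single 0 1) = 1 := by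
  rw [vec_apply]
  apply QuaternionAlgebra.ext <;> simp [cf]

lemma vec_one' : vec δ α β (Pi.single 1 1) = qO δ α β * qI δ α β := by
  rw [vec_apply]
  apply QuaternionAlgebra.ext <;> simp [cf, qO, qI]

lemma vec_two' : vec δ α β (Pi.single 2 1) = qO δ α β * qJ δ α β := by
  rw [vec_apply]
  apply QuaternionAlgebra.ext <;> simp [cf, qO, qJ]

lemma vec_three' : vec δ α β (Pi.single 3 1) = qO δ α β * qK δ α β := by
  rw [vec_apply]
  apply QuaternionAlgebra.ext <;> simp [cf, qO, qK]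

theorem eq_top_of_vec (hδ : δ ≠ 0) (hα : α ≠ 0) (hβ : β ≠ 0) (S : Subalgebra K (Hf δ α β))
    (hS : ∀ v, vec δ α β v ∈ S) : S = ⊤ := by
  have hI := hS (Pi.single 1 1)
  have hJ := hS (Pi.single 2 1)
  have hK := hS (Pi.single 3 1)
  rw [vec_one'] at hI
  rw [vec_two'] at hJ
  rw [vec_three'] at hK
  have key : ∀ (c : K) (x : Hf δ α β), c ≠ 0 → algebraMap K _ c * x ∈ S → x ∈ S := by
    intro c x hc hx
    have h1 := S.smul_mem hx c⁻¹
    rwa [← Algebra.smul_def, smul_smul, inv_mul_cancel₀ hc, one_smul] at h1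
  have hO : ∀ x y : Hf δ α β, (qO δ α β * x) * (qO δ α β * y) = algebraMap K _ δ * (x * y) := by
    intro x y
    rw [mul_assoc, ← mul_assoc x, qO_comm x, ← qO_mul_qO]
    simp only [mul_assoc]
  have hK' : qK δ α β ∈ S := by
    have h1 := S.mul_mem hI hJ
    rw [hO, qI_mul_qJ] at h1
    exact key _ _ hδ h1
  have hI' : qI δ α β ∈ S := by
    have h1 := S.mul_mem hK hJ
    rw [hO, qK_mul_qJ] at h1
    exact key _ _ hβ (key _ _ hδ h1)
  have hJ' : qJ δ α β ∈ S := by
    have h1 := S.mul_mem hI hK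
    rw [hO, qI_mul_qK] at h1
    exact key _ _ hα (key _ _ hδ h1)
  have hO' : qO δ α β ∈ S := by
    have h1 := S.mul_mem hI hI'
    rw [mul_assoc, qI_mul_qI, ← Algebra.commutes] at h1
    exact key _ _ hα h1
  have hcen : ∀ z, cen δ α β z ∈ S := by
    intro z
    rw [cen_eq]
    exact S.add_mem (S.algebraMap_mem _) (S.mul_mem (S.algebraMap_mem _) hO')
  rw [eq_top_iff]
  intro x _
  rw [hf_eta x]
  exact S.add_mem (S.add_mem (S.add_mem (hcen _) (S.mul_mem (hcen _) hI'))
    (S.mul_mem (hcen _) hJ')) (S.mul_mem (hcen _) hK')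

instance : FiniteDimensional K (Hf δ α β) := by
  have : Module.Finite (Zf δ) (Hf δ α β) := inferInstance
  exact Module.Finite.trans (Zf δ) (Hf δ α β)

lemma finrank_hf : finrank K (Hf δ α β) = 8 := by
  have h1 := Module.finrank_mul_finrank K (Zf δ) (Hf δ α β)
  rw [QuaternionAlgebra.finrank_eq_four, QuadraticAlgebra.finrank_eq_two] at h1
  omega

end Vale.Agent.P287.H100
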