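import Vale.Agent.P287.H100.Skolem

/-!
Isomorphic quaternion algebras over quadratic algebras come from similar quadratic forms.
-/

open Module

namespace Vale.Agent.P287.H100

universe u

variable {K : Type u} [Field K] {δ α β δ' α' β' : K}

lemma zf_smul_cancel {c : K} (hc : c ≠ 0) {z : Zf δ} (h : cf δ c * z = 0) : z = 0 := by
  rw [← smul_zf] at h
  exact (smul_eq_zero.mp h).resolve_left hc

lemma central_eq (h2 : (2 : K) ≠ 0) (hα : α ≠ 0) (x : Hf δ α β)
    (hI : x * qI δ α β = qI δ α β * x) (hJ : x * qJ δ α β = qJ δ α β * x) :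
    x = cen δ α β x.re := by
  have a1 := congrArg QuaternionAlgebra.imJ hI
  have a2 := congrArg QuaternionAlgebra.imK hI
  have a3 := congrArg QuaternionAlgebra.imK hJ
  simp only [qI, qJ, QuaternionAlgebra.imJ_mul, QuaternionAlgebra.imK_mul] at a1 a2 a3
  have b1 : x.imK = 0 := by
    apply zf_smul_cancel (mul_ne_zero h2 hα)
    rw [cf_mul, cf_two]
    simp only [cf]
    linear_combination -a1
  have b2 : x.imJ = 0 := by
    apply zf_smul_cancel h2
    rw [cf_two]
    linear_combination -a2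
  have b3 : x.imI = 0 := by
    apply zf_smul_cancel h2
    rw [cf_two]
    linear_combination a3
  apply QuaternionAlgebra.ext
  · rfl
  · exact b3
  · exact b2
  · exact b1

lemma star_cen (z : Zf δ) : star (cen δ α β z) = cen δ α β z := by
  apply QuaternionAlgebra.ext <;> simp [cen]

lemma iota_cen (z : Zf δ) : iota δ α β (cen δ α β z) = cen δ α β (star z) := by
  apply QuaternionAlgebra.ext <;> simp [cen, iota_apply]

lemma add_star_eq (x : Hf δ α β) : x + star x = cen δ α β (2 * x.re) := by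
  apply QuaternionAlgebra.ext <;> simp [cen, two_mul]

variable (Φ : Hf δ α β ≃ₐ[K] Hf δ' α' β')

lemma map_central (z : Zf δ) (h2 : (2 : K) ≠ 0) (hα' : α' ≠ 0) :
    ∃ w, Φ (cen δ α β z) = cen δ' α' β' w := by
  refine ⟨_, central_eq h2 hα' _ ?_ ?_⟩
  · obtain ⟨y, hy⟩ := Φ.surjective (qI δ' α' β')
    rw [← hy, ← map_mul, ← map_mul, mul_cen]
  · obtain ⟨y, hy⟩ := Φ.surjective (qJ δ' α' β')
    rw [← hy, ← map_mul, ← map_mul, mul_cen]

/-- the transported conjugation -/
def tstar (x : Hf δ α β) : Hf δ α β := Φ.symm (star (Φ x))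

lemma tstar_mul (x y : Hf δ α β) : tstar Φ (x * y) = tstar Φ y * tstar Φ x := by
  rw [tstar, map_mul, star_mul, map_mul]
  rfl

lemma tstar_add (x y : Hf δ α β) : tstar Φ (x + y) = tstar Φ x + tstar Φ y := by
  rw [tstar, map_add, star_add, map_add]
  rfl

lemma add_tstar_comm (x y : Hf δ α β) : (x + tstar Φ x) * y = y * (x + tstar Φ x) := by
  apply Φ.injective
  have h1 : Φ (x + tstar Φ x) = cen δ' α' β' (2 * (Φ x).re) := by
    rw [map_add, tstar, Φ.apply_symm_apply, add_star_eq]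
  rw [map_mul, map_mul, h1, mul_cen]

lemma mul_tstar_comm (x y : Hf δ α β) : (x * tstar Φ x) * y = y * (x * tstar Φ x) := by
  apply Φ.injective
  have h1 : Φ (x * tstar Φ x) = cen δ' α' β' (nr (Φ x)) := by
    rw [map_mul, tstar, Φ.apply_symm_apply, mul_star_eq]
  rw [map_mul Φ (x * tstar Φ x) y, map_mul Φ y, h1, mul_cen]

lemma tstar_cen (h2 : (2 : K) ≠ 0) (hα' : α' ≠ 0) (z : Zf δ) :
    tstar Φ (cen δ α β z) = cen δ α β z := by
  obtain ⟨w, hw⟩ := map_central Φ z h2 hα'
  rw [tstar, hw, star_cen, ← hw, Φ.symm_apply_apply]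

lemma tstar_of_sq (h2 : (2 : K) ≠ 0) (i k : Hf δ α β) (j : Hf δ α β) {c : K}
    (hi : i * i = algebraMap K _ c) (hij : i * j - j * i = (2 : K) • k)
    (hk : ∀ z : Hf δ α β, z * k = 0 → z = 0) : tstar Φ i = - i := by
  have h1 : ∀ y, (i + tstar Φ i) * y = y * (i + tstar Φ i) := add_tstar_comm Φ i
  have h3 : ∀ y, (i * tstar Φ i) * y = y * (i * tstar Φ i) := mul_tstar_comm Φ i
  set z := i + tstar Φ i with hz
  have h4 : tstar Φ i = z - i := by rw [hz]; abel
  have h5 : ∀ y, (z * i) * y = y * (z * i) := by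
    intro y
    have h6 := h3 y
    rw [h4, mul_sub, hi, sub_mul, mul_sub, Algebra.commutes c y, sub_left_inj] at h6
    rw [h1]
    exact h6
  have h7 : z * k = 0 := by
    have h8 : z * (i * j - j * i) = 0 := by
      rw [mul_sub, ← mul_assoc, h5 j, ← mul_assoc, ← mul_assoc, ← h1 j, sub_self]
    rw [hij, mul_smul_comm] at h8
    exact (smul_eq_zero.mp h8).resolve_left h2
  have h9 := hk z h7
  rw [h4, h9, zero_sub]

lemma cancel_right {k : Hf δ α β} {c : K} (hc : c ≠ 0) (hk : k * k = algebraMap K _ c)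
    (z : Hf δ α β) (h : z * k = 0) : z = 0 := by
  have h1 : z * k * k = 0 := by rw [h, zero_mul]
  rw [mul_assoc, hk, ← Algebra.commutes, ← Algebra.smul_def] at h1
  exact (smul_eq_zero.mp h1).resolve_left hc

theorem map_star (h2 : (2 : K) ≠ 0) (hα : α ≠ 0) (hβ : β ≠ 0) (hα' : α' ≠ 0)
    (x : Hf δ α β) : Φ (star x) = star (Φ x) := by
  have hK : ∀ z : Hf δ α β, z * qK δ α β = 0 → z = 0 :=
    cancel_right (neg_ne_zero.mpr (mul_ne_zero hα hβ)) qK_mul_qK
  have hI : tstar Φ (qI δ α β) = - qI δ α β := by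
    apply tstar_of_sq Φ h2 (qI δ α β) (qK δ α β) (qJ δ α β) qI_mul_qI _ hK
    rw [qI_mul_qJ, qJ_mul_qI, sub_neg_eq_add, two_smul]
  have hJ : tstar Φ (qJ δ α β) = - qJ δ α β := by
    apply tstar_of_sq Φ h2 (qJ δ α β) (-qK δ α β) (qI δ α β) qJ_mul_qJ
    · rw [qI_mul_qJ, qJ_mul_qI, two_smul]
      abel
    · intro z hz
      apply hK
      rw [mul_neg] at hz
      exact neg_eq_zero.mp hz
  have hKK : tstar Φ (qK δ α β) = - qK δ α β := by
    rw [← qI_mul_qJ, tstar_mul, hI, hJ, neg_mul_neg, qJ_mul_qI, qI_mul_qJ]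
  have hc := tstar_cen Φ h2 hα'
  have h3 : tstar Φ x = star x := by
    rw [hf_eta x]
    simp only [tstar_add, tstar_mul, hI, hJ, hKK, hc, star_add, star_mul, star_cen]
    have e1 : star (qI δ α β) = - qI δ α β := by
      apply QuaternionAlgebra.ext <;> simp [qI]
    have e2 : star (qJ δ α β) = - qJ δ α β := by
      apply QuaternionAlgebra.ext <;> simp [qJ]
    have e3 : star (qK δ α β) = - qK δ α β := by
      apply QuaternionAlgebra.ext <;> simp [qK]
    rw [e1, e2, e3]
  rw [← h3, tstar, Φ.apply_symm_apply]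

lemma exists_map_qO (h2 : (2 : K) ≠ 0) (hα' : α' ≠ 0) :
    ∃ b : K, Φ (qO δ α β) = b • qO δ' α' β' := by
  obtain ⟨w, hw⟩ := map_central Φ (om δ) h2 hα'
  have hw2 : w * w = cf δ' δ := by
    apply cen_injective (α := α') (β := β')
    rw [← cen_mul_cen, ← hw, ← map_mul]
    have h1 : cen δ α β (om δ) * cen δ α β (om δ) = algebraMap K _ δ := qO_mul_qO
    rw [h1, AlgEquiv.commutes, algebraMap_hf]
    rfl
  have h3 := congrArg QuadraticAlgebra.im hw2
  have h4 : (cf δ' δ).im = 0 := rfl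
  rw [h4] at h3
  simp only [QuadraticAlgebra.im_mul] at h3
  have h5 : 2 * (w.re * w.im) = 0 := by linear_combination h3
  rcases mul_eq_zero.mp ((mul_eq_zero.mp h5).resolve_left h2) with h6 | h6
  · refine ⟨w.im, ?_⟩
    have h7 : qO δ α β = cen δ α β (om δ) := rfl
    rw [h7, hw, cen_eq, h6, map_zero, zero_add, Algebra.smul_def]
  · exfalso
    have h7 : Φ (cen δ α β (om δ)) = Φ (algebraMap K _ w.re) := by
      rw [hw, cen_eq, h6, map_zero, zero_mul, add_zero, AlgEquiv.commutes]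
    have h8 := Φ.injective h7
    rw [algebraMap_hf] at h8
    have h9 := congrArg (fun y => y.re.im) h8
    have h10 : (1 : K) = 0 := h9
    exact one_ne_zero h10

/-- the four coordinates of an element `x` with `ι x = star x` -/
def coord (δ α β : K) : Hf δ α β →ₗ[K] (Fin 4 → K) where
  toFun x := ![x.re.re, x.imI.im, x.imJ.im, x.imK.im]
  map_add' x y := by
    funext i
    fin_cases i <;> simp
  map_smul' c x := by
    funext i
    fin_cases i <;> simp

lemma coord_vec (v : Fin 4 → K) : coord δ α β (vec δ α β v) = v := by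
  funext i
  fin_cases i <;> simp [coord, vec_apply, cf, om]

lemma vec_coord (h2 : (2 : K) ≠ 0) (x : Hf δ α β) (hx : iota δ α β x = star x) :
    vec δ α β (coord δ α β x) = x := by
  obtain ⟨v, rfl⟩ := exists_vec h2 x hx
  rw [coord_vec]

/-- the transported conjugation of the coefficients -/
def tiota (Φ : Hf δ α β ≃ₐ[K] Hf δ' α' β') : Hf δ α β →ₐ[K] Hf δ α β :=
  (Φ.symm : Hf δ' α' β' →ₐ[K] Hf δ α β).comp ((iota δ' α' β').comp
    (Φ : Hf δ α β →ₐ[K] Hf δ' α' β'))

lemma map_tiota (Φ : Hf δ α β ≃ₐ[K] Hf δ' α' β') (x : Hf δ α β) :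
    Φ (tiota Φ x) = iota δ' α' β' (Φ x) := Φ.apply_symm_apply _

lemma tiota_tiota (Φ : Hf δ α β ≃ₐ[K] Hf δ' α' β') (x : Hf δ α β) :
    tiota Φ (tiota Φ x) = x := by
  apply Φ.injective
  rw [map_tiota, map_tiota, iota_iota]

lemma iota_qO : iota δ α β (qO δ α β) = - qO δ α β := by
  apply QuaternionAlgebra.ext <;> simp [iota_apply, qO, star_om]

lemma tiota_qO (Φ : Hf δ α β ≃ₐ[K] Hf δ' α' β') (h2 : (2 : K) ≠ 0) (hα' : α' ≠ 0) :
    tiota Φ (qO δ α β) = - qO δ α β := by
  apply Φ.injective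
  obtain ⟨b, hb⟩ := exists_map_qO Φ h2 hα'
  rw [map_tiota, hb, map_smul, iota_qO, map_neg, hb, smul_neg]

/-- `ι' = Int(u) ι` -/
lemma exists_conj (ι' : Hf δ α β →ₐ[K] Hf δ α β) (h2 : (2 : K) ≠ 0) (hδ : δ ≠ 0) (hα : α ≠ 0)
    (hβ : β ≠ 0) (han : ∀ v, q0 δ α β v = 0 → v = 0) (hO : ι' (qO δ α β) = - qO δ α β) :
    ∃ u v, u * v = 1 ∧ v * u = 1 ∧ ∀ y, ι' y * u = u * iota δ α β y := by
  obtain ⟨u, hu, hu1⟩ := exists_inner (ι'.comp (iota δ α β)) h2 hδ hα hβ han (by
    rw [AlgHom.comp_apply, iota_qO, map_neg, hO, neg_neg])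
  obtain ⟨v, rfl⟩ := hu
  refine ⟨↑v, ↑v⁻¹, v.mul_inv, v.inv_mul, ?_⟩
  intro y
  have := hu1 (iota δ α β y)
  rwa [AlgHom.comp_apply, iota_iota] at this

/-- `u ι(u)` is central -/
lemma exists_cen (ι' : Hf δ α β →ₐ[K] Hf δ α β) (h2 : (2 : K) ≠ 0) (hα : α ≠ 0)
    (hι' : ∀ x, ι' (ι' x) = x) (u : Hf δ α β) (hu : ∀ y, ι' y * u = u * iota δ α β y) :
    ∃ c : Zf δ, u * iota δ α β u = cen δ α β c := by
  have hc : ∀ y, y * (u * iota δ α β u) = (u * iota δ α β u) * y := by
    intro y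
    have h5 := hu (ι' y)
    rw [hι'] at h5
    have h6 : iota δ α β (ι' y) * iota δ α β u = iota δ α β u * y := by
      rw [← map_mul, hu, map_mul, iota_iota]
    rw [← mul_assoc, h5, mul_assoc, h6, ← mul_assoc]
  exact ⟨_, central_eq h2 hα _ (hc _).symm (hc _).symm⟩

section abs

variable {R : Type u} [Ring R] [StarRing R]

lemma abs1 {u v a b : R} (huv : u * v = 1) (hb : v * star v = b) (hc : b * star u = star u * b)
    (ha : u * star u = a) : a * b = 1 := by
  have h1 : (u * v) * star (u * v) = 1 := by rw [huv, star_one, one_mul]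
  rwa [star_mul, mul_assoc, ← mul_assoc v, hb, hc, ← mul_assoc, ha] at h1

lemma abs2 [Algebra K R] {U T y : R} {l : K} (hl : l ≠ 0) (h1 : U * star U = algebraMap K R l)
    (hT : T * U = U * (star U * y)) : T = y * star U := by
  have h3 : T * (U * star U) = (U * star U) * (y * star U) := by
    rw [← mul_assoc, hT]
    simp only [mul_assoc]
  rw [h1, ← Algebra.commutes, ← Algebra.smul_def, ← Algebra.smul_def] at h3
  have h4 := congrArg (fun x => l⁻¹ • x) h3
  simpa only [smul_smul, inv_mul_cancel₀ hl, one_smul] using h4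

lemma abs3 [Algebra K R] {U y : R} {l q : K} (h1 : U * star U = algebraMap K R l)
    (hy : y * star y = algebraMap K R q) : (U * y) * star (U * y) = algebraMap K R (l * q) := by
  rw [star_mul, mul_assoc, ← mul_assoc y, hy, ← mul_assoc, ← Algebra.commutes, mul_assoc, h1,
    ← map_mul, mul_comm]

end abs

/-- the reduced norm of a unit is a unit -/
lemma exists_nr_inv {u v : Hf δ α β} (huv : u * v = 1) : nr u * nr v = 1 := by
  have h1 := abs1 huv (mul_star_eq v) (mul_cen _ _).symm (mul_star_eq u)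
  rw [cen_mul_cen, ← cen_one] at h1
  exact cen_injective h1

lemma iota_star_unit {u v : Hf δ α β} (huv : u * v = 1) (hvu : v * u = 1) {c : Zf δ}
    (hc : u * iota δ α β u = cen δ α β c) :
    iota δ α β (star u) = cen δ α β (c * nr v) * u := by
  have hiu : iota δ α β u = v * cen δ α β c := by
    rw [← hc, ← mul_assoc, hvu, one_mul]
  have hsv : star v = u * cen δ α β (nr v) := by
    have h1 : star v * star u = 1 := by rw [← star_mul, huv, star_one]
    calc star v = star v * (star u * u) * cen δ α β (nr v) := by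
          rw [star_mul_eq, mul_assoc, cen_mul_cen, exists_nr_inv huv, cen_one, mul_one]
      _ = u * cen δ α β (nr v) := by rw [← mul_assoc, h1, one_mul]
  rw [iota_star, hiu, star_mul, hsv, star_cen, mul_cen, ← mul_assoc, cen_mul_cen]

/-- Hilbert's theorem 90 -/
lemma hilbert90 (h2 : (2 : K) ≠ 0) (hδ : δ ≠ 0) (η : Zf δ) (hηη : η * star η = 1) :
    ∃ z : Zf δ, IsUnit z ∧ star z * η = z := by
  by_cases h : η = -1
  · refine ⟨om δ, ?_, ?_⟩
    · apply isUnit_zf
      simpa [om] using hδ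
    · rw [h, star_om, neg_mul_neg, mul_one]
  · refine ⟨1 + η, ?_, ?_⟩
    · apply isUnit_zf
      have h1 := congrArg QuadraticAlgebra.re hηη
      simp only [QuadraticAlgebra.re_mul, QuadraticAlgebra.re_star, QuadraticAlgebra.im_star,
        QuadraticAlgebra.re_one, zero_mul, add_zero] at h1
      have h3 : (1 + η).re = 1 + η.re := by simp [QuadraticAlgebra.re_one]
      have h4 : (1 + η).im = η.im := by simp [QuadraticAlgebra.im_one]
      rw [h3, h4]
      intro h0
      apply h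
      have h5 : 2 * (1 + η.re) = 0 := by linear_combination h0 - h1
      have h6 := (mul_eq_zero.mp h5).resolve_left h2
      have h7 : η.re = -1 := by linear_combination h6
      rw [h7] at h0
      have h8 : δ * η.im ^ 2 = 0 := by linear_combination -h0
      have h9 := (pow_eq_zero_iff two_ne_zero).mp ((mul_eq_zero.mp h8).resolve_left hδ)
      ext
      · rw [h7]
        simp [QuadraticAlgebra.re_one]
      · rw [h9]
        simp [QuadraticAlgebra.im_one]
    · rw [star_add, star_one, add_mul, one_mul, mul_comm (star η), hηη, add_comm]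

theorem exists_conj_vec (ι' : Hf δ α β →ₐ[K] Hf δ α β) (h2 : (2 : K) ≠ 0) (hδ : δ ≠ 0)
    (hα : α ≠ 0) (hβ : β ≠ 0) (han : ∀ v, q0 δ α β v = 0 → v = 0)
    (hO : ι' (qO δ α β) = - qO δ α β) (hι' : ∀ x, ι' (ι' x) = x) :
    ∃ u0, q0 δ α β u0 ≠ 0 ∧ ∀ y, ι' y * vec δ α β u0 = vec δ α β u0 * iota δ α β y := by
  obtain ⟨u, v, huv, hvu, hu⟩ := exists_conj ι' h2 hδ hα hβ han hO
  obtain ⟨c, hc⟩ := exists_cen ι' h2 hα hι' u hu
  have hτu := iota_star_unit huv hvu hc
  set η : Zf δ := c * nr v with hη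
  have hηη : η * star η = 1 := by
    have h1 : iota δ α β (star (iota δ α β (star u))) = u := by
      rw [← iota_star, iota_iota, star_star]
    rw [hτu, star_mul, star_cen, map_mul, hτu, iota_cen, mul_assoc, mul_cen, ← mul_assoc,
      cen_mul_cen] at h1
    have h3 := congrArg (fun y => y * v) h1
    simp only [mul_assoc, huv, mul_one] at h3
    exact congrArg QuaternionAlgebra.re h3
  obtain ⟨z, hz, hzη⟩ := hilbert90 h2 hδ η hηη
  have hτU : iota δ α β (star (cen δ α β z * u)) = cen δ α β z * u := by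
    rw [star_mul, star_cen, map_mul, iota_cen, hτu, mul_cen, ← mul_assoc, cen_mul_cen, hzη]
  have hstarU : iota δ α β (cen δ α β z * u) = star (cen δ α β z * u) := by
    have := congrArg (iota δ α β) hτU
    rw [iota_iota] at this
    exact this.symm
  obtain ⟨u0, hu0⟩ := exists_vec h2 _ hstarU
  refine ⟨u0, ?_, ?_⟩
  · intro h0
    have h1 := han _ h0
    rw [h1, map_zero] at hu0
    obtain ⟨z', hz'⟩ := hz.exists_left_inv
    have h3 : cen δ α β z' * (cen δ α β z * u) * v = 1 := by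
      rw [← mul_assoc, cen_mul_cen, hz', cen_one, one_mul, huv]
    rw [← hu0, mul_zero, zero_mul] at h3
    exact zero_ne_one h3
  · intro y
    rw [hu0, ← mul_assoc, mul_cen, mul_assoc, hu, mul_assoc]

theorem exists_similar (Φ : Hf δ α β ≃ₐ[K] Hf δ' α' β') (h2 : (2 : K) ≠ 0) (hδ : δ ≠ 0)
    (hα : α ≠ 0) (hβ : β ≠ 0) (hα' : α' ≠ 0) (han : ∀ v, q0 δ α β v = 0 → v = 0) :
    ∃ l : K, l ≠ 0 ∧ ∃ φ : (Fin 4 → K) ≃ₗ[K] (Fin 4 → K),
      ∀ v, q0 δ' α' β' (φ v) = l * q0 δ α β v := by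
  obtain ⟨u0, hl, hu⟩ := exists_conj_vec (tiota Φ) h2 hδ hα hβ han (tiota_qO Φ h2 hα')
    (tiota_tiota Φ)
  have key : ∀ y : Fin 4 → K, iota δ' α' β' (Φ (vec δ α β u0 * vec δ α β y)) =
      star (Φ (vec δ α β u0 * vec δ α β y)) := by
    intro y
    rw [← map_tiota, ← map_star Φ h2 hα hβ hα', star_mul, ← iota_vec y]
    congr 1
    refine abs2 hl (vec_mul_star u0) ?_
    rw [hu, map_mul, iota_vec u0]
  let φ : (Fin 4 → K) →ₗ[K] (Fin 4 → K) := (coord δ' α' β').comp
    ((Φ.toLinearMap).comp ((LinearMap.mulLeft K (vec δ α β u0)).comp (vec δ α β)))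
  have hφ : ∀ y, vec δ' α' β' (φ y) = Φ (vec δ α β u0 * vec δ α β y) :=
    fun y => vec_coord h2 _ (key y)
  have hq : ∀ y, q0 δ' α' β' (φ y) = q0 δ α β u0 * q0 δ α β y := by
    intro y
    have h1 := vec_mul_star (δ := δ') (α := α') (β := β') (φ y)
    rw [hφ, ← map_star Φ h2 hα hβ hα', ← map_mul, abs3 (vec_mul_star u0) (vec_mul_star y),
      AlgEquiv.commutes, algebraMap_hf, algebraMap_hf] at h1
    have h3 := congrArg (fun x => x.re.re) h1
    exact h3.symm
  have hφi : Function.Injective φ := by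
    rw [injective_iff_map_eq_zero]
    intro y hy
    have h1 := hq y
    rw [hy] at h1
    have h3 : q0 δ' α' β' 0 = 0 := by simp [q0]
    rw [h3] at h1
    exact han y ((mul_eq_zero.mp h1.symm).resolve_left hl)
  exact ⟨_, hl, LinearEquiv.ofInjectiveEndo φ hφi, hq⟩

end Vale.Agent.P287.H100
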