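import Vale.Agent.P287.H100.Reduced

/-!
Morita invariance of semiprimeness, and degenerate quadratic forms.
-/

open Module CategoryTheory CliffordAlgebra QuadraticMap

namespace Vale.Agent.P287.H100

universe u

theorem isSemisimpleRing_of_reduced {A : Type u} [Ring A] [IsArtinianRing A]
    (h : ∀ x : A, x * x = 0 → x = 0) : IsSemisimpleRing A := by
  rw [IsArtinianRing.isSemisimpleRing_iff_jacobson]
  obtain ⟨n, hn⟩ := IsSemiprimaryRing.isNilpotent (R := A)
  rw [eq_bot_iff]
  intro x hx
  have h1 : x ^ n ∈ Ring.jacobson A ^ n := Ideal.pow_mem_pow hx n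
  rw [hn] at h1
  have h2 : x ^ n = 0 := h1
  have h3 : ∀ m : ℕ, x ^ m = 0 → x = 0 := by
    intro m
    induction m using Nat.strong_induction_on with
    | _ m ih =>
      intro hm
      by_cases h0 : m ≤ 1
      · interval_cases m
        · rw [pow_zero] at hm
          have := congrArg (fun t => x * t) hm
          simpa using this
        · simpa using hm
      · apply ih ((m + 1) / 2) (by omega)
        apply h
        rw [← pow_add]
        have : m ≤ (m + 1) / 2 + (m + 1) / 2 := by omega
        obtain ⟨k, hk⟩ := Nat.exists_eq_add_of_le this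
        rw [hk, pow_add, hm, zero_mul]
  exact h3 n h2

theorem semiprime_of_equiv {A B : Type u} [Ring A] [Ring B] [IsSemisimpleRing A]
    (e : ModuleCat.{u} A ≌ ModuleCat.{u} B) (b : B) (hb : ∀ y, b * y * b = 0) : b = 0 := by
  let J : Submodule B B := Submodule.span B {b}
  let i : ModuleCat.of B J ⟶ ModuleCat.of B B := ModuleCat.ofHom J.subtype
  have hi : Mono i := by
    rw [ModuleCat.mono_iff_injective]
    exact J.subtype_injective
  have hGi : Mono (e.inverse.map i) := inferInstance
  rw [ModuleCat.mono_iff_injective] at hGi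
  obtain ⟨r', hr'⟩ := IsSemisimpleModule.extension_property (e.inverse.map i).hom hGi
    LinearMap.id
  obtain ⟨r, hr⟩ := e.inverse.map_surjective (ModuleCat.ofHom r')
  have h1 : i ≫ r = 𝟙 _ := by
    apply e.inverse.map_injective
    rw [e.inverse.map_comp, hr, e.inverse.map_id]
    ext x
    exact LinearMap.congr_fun hr' x
  have hbJ : b ∈ J := Submodule.mem_span_singleton_self b
  obtain ⟨y, hy⟩ := Submodule.mem_span_singleton.mp (r.hom (1 : B)).2
  have h2 : r.hom (b : B) = ⟨b, hbJ⟩ := by
    have := congrArg (fun f => f.hom (⟨b, hbJ⟩ : J)) h1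
    exact this
  have h3 : r.hom (b : B) = b • r.hom (1 : B) := by
    rw [← map_smul]
    congr 1
    exact (mul_one b).symm
  have h4 : (b : B) = b * (y * b) := by
    have h5 : b = (b • r.hom (1 : B)).1 := congrArg Subtype.val (h2.symm.trans h3)
    have h6 : (b • r.hom (1 : B)).1 = b * (r.hom (1 : B)).1 := rfl
    rw [h6, ← hy] at h5
    exact h5
  rw [h4, ← mul_assoc, hb]

section clifford

variable {K V : Type u} [Field K] [AddCommGroup V] [Module K V]

lemma iota_ne_zero [Invertible (2 : K)] (Q : QuadraticForm K V) {x : V} (hx : x ≠ 0) :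
    ι Q x ≠ 0 := by
  intro h
  apply hx
  have h1 : equivExterior Q (ι Q x) = ExteriorAlgebra.ι K x :=
    changeForm_ι changeForm.associated_neg_proof x
  rw [h, map_zero] at h1
  exact (ExteriorAlgebra.ι_eq_zero_iff x).mp h1.symm

lemma rad_mul (Q : QuadraticForm K V) {r : V} (hr : ∀ m, polar Q r m = 0)
    (x : CliffordAlgebra Q) : ι Q r * x = involute x * ι Q r := by
  induction x using CliffordAlgebra.induction with
  | algebraMap c => rw [AlgHom.commutes, Algebra.commutes]
  | ι m =>
    have h := ι_mul_ι_add_swap (Q := Q) r m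
    rw [hr, map_zero] at h
    rw [involute_ι, neg_mul]
    exact eq_neg_of_add_eq_zero_left h
  | mul x y hx hy => rw [← mul_assoc, hx, mul_assoc, hy, map_mul, mul_assoc]
  | add x y hx hy => rw [mul_add, hx, hy, map_add, add_mul]

theorem exists_nilpotent [Invertible (2 : K)] [FiniteDimensional K V] (Q : QuadraticForm K V)
    (hd : 2 ≤ finrank K V) (hQ : ¬ (associated (R := K) Q).SeparatingLeft) :
    ∃ b : even Q, b ≠ 0 ∧ ∀ y, b * y * b = 0 := by
  have h2 : (2 : K) ≠ 0 := (isUnit_of_invertible (2 : K)).ne_zero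
  obtain ⟨r, hr0, hr⟩ : ∃ r : V, r ≠ 0 ∧ ∀ m, associated (R := K) Q r m = 0 := by
    by_contra hcon
    push Not at hcon
    apply hQ
    intro x hx
    by_contra h0
    obtain ⟨m, hm⟩ := hcon x h0
    exact hm (hx m)
  have hp : ∀ m, polar Q r m = 0 := by
    intro m
    have h1 := LinearMap.congr_fun (LinearMap.congr_fun (two_nsmul_associated K Q) r) m
    have h3 : (2 • associated (R := K) Q) r m = 2 • (associated (R := K) Q r m) := rfl
    rw [h3, hr, smul_zero] at h1
    exact h1.symm
  have hQr : Q r = 0 := by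
    have h1 := hr r
    rwa [associated_eq_self_apply] at h1
  -- a functional
  obtain ⟨d, hd1⟩ := Projective.exists_dual_eq_one K hr0
  obtain ⟨s, hs, hs0⟩ : ∃ s ∈ LinearMap.ker d, s ≠ 0 := by
    apply Submodule.exists_mem_ne_zero_of_ne_bot
    intro hbot
    have h1 := LinearMap.finrank_range_add_finrank_ker d
    have h3 := Submodule.finrank_le (LinearMap.range d)
    rw [hbot, finrank_bot] at h1
    rw [finrank_self] at h3
    omega
  rw [LinearMap.mem_ker] at hs
  refine ⟨(even.ι Q).bilin r s, ?_, ?_⟩
  · intro h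
    have h1 : ι Q r * ι Q s = 0 := congrArg Subtype.val h
    have h3 := congrArg (contractLeft (Q := Q) d) h1
    rw [contractLeft_ι_mul, contractLeft_ι, hd1, hs, map_zero, mul_zero, sub_zero, one_smul,
      map_zero] at h3
    exact iota_ne_zero Q hs0 h3
  · intro y
    apply Subtype.ext
    change ι Q r * ι Q s * (y : CliffordAlgebra Q) * (ι Q r * ι Q s) = 0
    have h1 : ι Q r * (ι Q s * y) * ι Q r = 0 := by
      rw [rad_mul Q hp, mul_assoc, ι_sq_scalar, hQr, map_zero, mul_zero]
    calc ι Q r * ι Q s * (y : CliffordAlgebra Q) * (ι Q r * ι Q s) =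
        ι Q r * (ι Q s * y) * ι Q r * ι Q s := by simp only [mul_assoc]
      _ = 0 := by rw [h1, zero_mul]

end clifford

end Vale.Agent.P287.H100
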