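import Vale.Agent.P287.H100.Coord
import Vale.Agent.P287.H100.EvenFour
import Vale.Agent.P287.H100.EvenSix
import Vale.Agent.P287.H100.Iso
import Vale.Agent.P287.H100.Semi

/-!
An anisotropic quadratic form `q` in four variables and an isotropic quadratic form `N` in six
variables with Morita equivalent even Clifford algebras: `q ⊥ H` is similar to `N`. Conversely, if
`q` is nondegenerate and `q ⊥ H` is similar to `N`, then the even Clifford algebras are Morita
equivalent.
-/

open Module CliffordAlgebra QuadraticMap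

namespace Vale.Agent.P287.H100

universe u

lemma nr_mul {K : Type u} [Field K] {δ α β : K} (x y : Hf δ α β) : nr (x * y) = nr x * nr y := by
  simp only [nr, QuaternionAlgebra.re_mul, QuaternionAlgebra.imI_mul, QuaternionAlgebra.imJ_mul,
    QuaternionAlgebra.imK_mul]
  simp only [cf]
  ring

lemma zf_reduced {K : Type u} [Field K] {δ : K} (h2 : (2 : K) ≠ 0) (hδ : δ ≠ 0) (z : Zf δ)
    (h : z * z = 0) : z = 0 := by
  have h1 := congrArg QuadraticAlgebra.re h
  have h3 := congrArg QuadraticAlgebra.im h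
  simp only [QuadraticAlgebra.re_mul, QuadraticAlgebra.im_mul, QuadraticAlgebra.re_zero,
    QuadraticAlgebra.im_zero, zero_mul, add_zero] at h1 h3
  have h4 : 2 * (z.re * z.im) = 0 := by linear_combination h3
  rcases mul_eq_zero.mp ((mul_eq_zero.mp h4).resolve_left h2) with h5 | h5
  · rw [h5] at h1
    have h6 : δ * z.im ^ 2 = 0 := by linear_combination h1
    have h7 := (pow_eq_zero_iff two_ne_zero).mp ((mul_eq_zero.mp h6).resolve_left hδ)
    ext
    · exact h5
    · exact h7
  · rw [h5] at h1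
    have h6 : z.re ^ 2 = 0 := by linear_combination h1
    have h7 := (pow_eq_zero_iff two_ne_zero).mp h6
    ext
    · exact h7
    · exact h5

lemma hf_semisimple {K : Type u} [Field K] {δ α β : K} (h2 : (2 : K) ≠ 0) (hδ : δ ≠ 0)
    (hα : α ≠ 0) (hβ : β ≠ 0) (han : ∀ v, q0 δ α β v = 0 → v = 0) :
    IsSemisimpleRing (Hf δ α β) := by
  have : IsArtinianRing (Hf δ α β) := IsArtinianRing.of_finite K (Hf δ α β)
  apply isSemisimpleRing_of_reduced
  intro x hx
  apply eq_zero_of_nr h2 hδ hα hβ han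
  apply zf_reduced h2 hδ
  rw [← nr_mul, hx]
  simp [nr]

theorem similar_of_morita {K V W : Type u} [Field K] [Invertible (2 : K)] [AddCommGroup V]
    [Module K V] [AddCommGroup W] [Module K W] [FiniteDimensional K V] [FiniteDimensional K W]
    (hV : finrank K V = 4) (hW : finrank K W = 6) (q : QuadraticForm K V) (N : QuadraticForm K W)
    (hq : q.Anisotropic) (x : W) (hx : x ≠ 0) (hNx : N x = 0)
    (h : IsMoritaEquivalent K (even q) (even N)) :
    ∃ l : K, l ≠ 0 ∧ ∃ φ : (V × K × K) ≃ₗ[K] W, ∀ v a b, N (φ (v, a, b)) = l * (q v + a * b) := by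
  have h2 : (2 : K) ≠ 0 := (isUnit_of_invertible (2 : K)).ne_zero
  obtain ⟨l1, δ, α, β, hl1, hδ, hα, hβ, e1, he1⟩ := exists_four q hV
    (separatingLeft_of_anisotropic q hq)
  have han : ∀ v, q0 δ α β v = 0 → v = 0 := by
    intro v hv
    have h1 : q (e1.symm v) = 0 := by rw [he1, e1.apply_symm_apply, hv, mul_zero]
    exact e1.symm.map_eq_zero_iff.mp (hq _ h1)
  obtain ⟨fq⟩ := exists_even_four h2 hδ hα hβ q hl1 e1 he1
  have hN : (associated (R := K) N).SeparatingLeft := by
    by_contra hcon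
    obtain ⟨b, hb, hb0⟩ := exists_nilpotent N (by omega) hcon
    have := hf_semisimple h2 hδ hα hβ han
    obtain ⟨⟨E⟩⟩ : IsMoritaEquivalent K (Hf δ α β) (even N) :=
      .trans K (.symm K (.of_algEquiv K fq)) h
    exact hb (semiprime_of_equiv E.eqv b hb0)
  obtain ⟨l2, δ', α', β', hl2, hδ', hα', hβ', e2, he2⟩ := exists_six N hW hN x hx hNx
  obtain ⟨fN⟩ := exists_even_six h2 hδ' hα' hβ' N hl2 e2 he2
  have hM : IsMoritaEquivalent K (Hf δ α β) (Hf δ' α' β') :=
    .trans K (.symm K (.of_algEquiv K fq)) (.trans K h (.trans K (.of_algEquiv K fN)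
      (.symm K (.matrix (Hf δ' α' β') K))))
  obtain ⟨Φ⟩ := algEquiv_of_morita (by rw [finrank_hf, finrank_hf])
    (enoughUnits h2 hδ hα hβ han) hM
  obtain ⟨l, hl, φ, hφ⟩ := exists_similar Φ h2 hδ hα hβ hα' han
  refine ⟨l2 * l / l1, div_ne_zero (mul_ne_zero hl2 hl) hl1,
    (LinearEquiv.prodCongr (e1.trans φ) (LinearEquiv.prodCongr
      (LinearEquiv.smulOfNeZero K K (l / l1) (div_ne_zero hl hl1)) (LinearEquiv.refl K K))).trans
      e2.symm, ?_⟩
  intro v a b
  rw [LinearEquiv.trans_apply, he2, LinearEquiv.apply_symm_apply, he1]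
  simp only [LinearEquiv.prodCongr_apply, LinearEquiv.trans_apply, hφ, LinearEquiv.refl_apply,
    LinearEquiv.smulOfNeZero_apply, smul_eq_mul]
  field_simp

/-- Converse. -/
theorem morita_of_similar {K V W : Type u} [Field K] [Invertible (2 : K)] [AddCommGroup V]
    [Module K V] [AddCommGroup W] [Module K W] [FiniteDimensional K V]
    (hV : finrank K V = 4) (q : QuadraticForm K V) (N : QuadraticForm K W)
    (hq : (associated (R := K) q).SeparatingLeft) (l : K) (hl : l ≠ 0) (φ : (V × K × K) ≃ₗ[K] W)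
    (hφ : ∀ v a b, N (φ (v, a, b)) = l * (q v + a * b)) :
    IsMoritaEquivalent K (even q) (even N) := by
  have h2 : (2 : K) ≠ 0 := (isUnit_of_invertible (2 : K)).ne_zero
  obtain ⟨l1, δ, α, β, hl1, hδ, hα, hβ, e1, he1⟩ := exists_four q hV hq
  obtain ⟨fq⟩ := exists_even_four h2 hδ hα hβ q hl1 e1 he1
  obtain ⟨fN⟩ := exists_even_six h2 hδ hα hβ N (mul_ne_zero hl hl1)
    (φ.symm.trans (LinearEquiv.prodCongr e1 (LinearEquiv.prodCongr
      (LinearEquiv.smulOfNeZero K K (1 / l1) (div_ne_zero one_ne_zero hl1))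
      (LinearEquiv.refl K K)))) (by
    intro m
    obtain ⟨⟨v, a, b⟩, rfl⟩ := φ.surjective m
    rw [hφ, he1]
    simp only [LinearEquiv.trans_apply, LinearEquiv.symm_apply_apply,
      LinearEquiv.prodCongr_apply, LinearEquiv.refl_apply, LinearEquiv.smulOfNeZero_apply,
      smul_eq_mul]
    field_simp)
  exact .trans K (.of_algEquiv K fq) (.trans K (.matrix (Hf δ α β) K)
    (.symm K (.of_algEquiv K fN)))

end Vale.Agent.P287.H100
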