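import Mathlib

/-!
The quaternion algebra `(α, β)` over the quadratic algebra `K(√δ)` and the four-dimensional
quadratic form `⟨1, -δα, -δβ, δαβ⟩` inside it.
-/

open Module

namespace Vale.Agent.P287.H100

variable {K : Type*} [Field K]

/-- the quadratic algebra `K(√δ)` -/
abbrev Zf (δ : K) : Type _ := QuadraticAlgebra K δ 0

/-- the quaternion algebra `(α, β)` over `K(√δ)` -/
abbrev Hf (δ α β : K) : Type _ :=
  QuaternionAlgebra (Zf δ) (algebraMap K (Zf δ) α) 0 (algebraMap K (Zf δ) β)

/-- `√δ` -/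
def om (δ : K) : Zf δ := ⟨0, 1⟩

/-- the inclusion `K → K(√δ)` -/
def cf (δ : K) (a : K) : Zf δ := algebraMap K (Zf δ) a

section Z

variable {δ : K}

lemma om_mul_om : om δ * om δ = cf δ δ := by
  ext <;> simp [om, cf]

lemma star_om : star (om δ) = - om δ := by
  ext <;> simp [om]

lemma star_cf (a : K) : star (cf δ a) = cf δ a := by
  ext <;> simp [cf]

lemma cf_add (a b : K) : cf δ (a + b) = cf δ a + cf δ b := map_add _ _ _
lemma cf_sub (a b : K) : cf δ (a - b) = cf δ a - cf δ b := map_sub _ _ _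
lemma cf_neg (a : K) : cf δ (-a) = - cf δ a := map_neg _ _
lemma cf_mul (a b : K) : cf δ (a * b) = cf δ a * cf δ b := map_mul _ _ _
lemma cf_pow (a : K) (n : ℕ) : cf δ (a ^ n) = cf δ a ^ n := map_pow _ _ _
lemma cf_one : cf δ 1 = 1 := map_one _
lemma cf_zero : cf δ 0 = 0 := map_zero _
lemma cf_two : cf δ 2 = 2 := map_ofNat _ _

lemma zf_eta (z : Zf δ) : z = cf δ z.re + cf δ z.im * om δ := by
  ext <;> simp [om, cf]

lemma smul_zf (a : K) (z : Zf δ) : a • z = cf δ a * z := Algebra.smul_def _ _

end Z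

lemma algebraMap_hf {δ α β : K} (r : K) :
    algebraMap K (Hf δ α β) r = ⟨cf δ r, 0, 0, 0⟩ := by
  apply QuaternionAlgebra.ext <;> rfl

/-- the form `⟨1, -δα, -δβ, δαβ⟩` -/
def q0 (δ α β : K) (v : Fin 4 → K) : K :=
  v 0 ^ 2 - δ * α * v 1 ^ 2 - δ * β * v 2 ^ 2 + δ * α * β * v 3 ^ 2

/-- the four-dimensional space of elements `x` with `ι x = star x` -/
def vec (δ α β : K) : (Fin 4 → K) →ₗ[K] Hf δ α β where
  toFun v := ⟨cf δ (v 0), cf δ (v 1) * om δ, cf δ (v 2) * om δ, cf δ (v 3) * om δ⟩
  map_add' x y := by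
    apply QuaternionAlgebra.ext <;> simp [cf_add, add_mul]
  map_smul' c x := by
    apply QuaternionAlgebra.ext <;> simp [cf_mul, mul_assoc, smul_zf]

variable {δ α β : K}

lemma vec_apply (v : Fin 4 → K) :
    vec δ α β v = ⟨cf δ (v 0), cf δ (v 1) * om δ, cf δ (v 2) * om δ, cf δ (v 3) * om δ⟩ := rfl

lemma vec_injective : Function.Injective (vec δ α β) := by
  intro v w h
  rw [vec_apply, vec_apply, QuaternionAlgebra.mk.injEq] at h
  have h0 := congrArg QuadraticAlgebra.re h.1
  have h1 := congrArg QuadraticAlgebra.im h.2.1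
  have h2 := congrArg QuadraticAlgebra.im h.2.2.1
  have h3 := congrArg QuadraticAlgebra.im h.2.2.2
  simp [cf, om] at h0 h1 h2 h3
  funext i
  fin_cases i
  · exact h0
  · exact h1
  · exact h2
  · exact h3

/-- the conjugation of the coefficients -/
def iota (δ α β : K) : Hf δ α β →ₐ[K] Hf δ α β where
  toFun x := ⟨star x.re, star x.imI, star x.imJ, star x.imK⟩
  map_one' := by apply QuaternionAlgebra.ext <;> simp
  map_mul' x y := by
    have e1 : star (algebraMap K (Zf δ) α) = algebraMap K (Zf δ) α := star_cf α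
    have e2 : star (algebraMap K (Zf δ) β) = algebraMap K (Zf δ) β := star_cf β
    apply QuaternionAlgebra.ext
    · simp only [QuaternionAlgebra.re_mul, star_add, star_sub, star_mul', e1, e2, star_zero]
    · simp only [QuaternionAlgebra.imI_mul, star_add, star_sub, star_mul', e2, star_zero]
    · simp only [QuaternionAlgebra.imJ_mul, star_add, star_sub, star_mul', e1, star_zero]
    · simp only [QuaternionAlgebra.imK_mul, star_add, star_sub, star_mul', star_zero]
  map_zero' := by apply QuaternionAlgebra.ext <;> simp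
  map_add' x y := by apply QuaternionAlgebra.ext <;> simp
  commutes' r := by
    rw [algebraMap_hf]
    simp only [star_cf, star_zero]

lemma iota_apply (x : Hf δ α β) :
    iota δ α β x = ⟨star x.re, star x.imI, star x.imJ, star x.imK⟩ := rfl

lemma iota_iota (x : Hf δ α β) : iota δ α β (iota δ α β x) = x := by
  rw [iota_apply, iota_apply]
  apply QuaternionAlgebra.ext <;> simp

lemma iota_star (x : Hf δ α β) : iota δ α β (star x) = star (iota δ α β x) := by
  apply QuaternionAlgebra.ext <;> simp [iota_apply]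

lemma iota_vec (v : Fin 4 → K) : iota δ α β (vec δ α β v) = star (vec δ α β v) := by
  apply QuaternionAlgebra.ext <;> simp [iota_apply, vec_apply, star_cf, star_om]

lemma exists_vec (h2 : (2 : K) ≠ 0) (x : Hf δ α β) (hx : iota δ α β x = star x) :
    ∃ v, vec δ α β v = x := by
  have h0 := congrArg (fun y => y.re.im) hx
  have h1 := congrArg (fun y => y.imI.re) hx
  have h3 := congrArg (fun y => y.imJ.re) hx
  have h4 := congrArg (fun y => y.imK.re) hx
  simp [iota_apply] at h0 h1 h3 h4
  have key : ∀ a : K, a = -a → a = 0 := by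
    intro a ha
    have : 2 * a = 0 := by linear_combination ha
    exact (mul_eq_zero.mp this).resolve_left h2
  have k0 := key _ h0.symm
  have k1 := key _ h1
  have k2 := key _ h3
  have k3 := key _ h4
  refine ⟨![x.re.re, x.imI.im, x.imJ.im, x.imK.im], ?_⟩
  rw [vec_apply]
  apply QuaternionAlgebra.ext
  · rw [zf_eta x.re, k0]; simp [cf, om]
  · rw [zf_eta x.imI, k1]; simp [cf, om]
  · rw [zf_eta x.imJ, k2]; simp [cf, om]
  · rw [zf_eta x.imK, k3]; simp [cf, om]

lemma vec_mul_star (v : Fin 4 → K) :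
    vec δ α β v * star (vec δ α β v) = algebraMap K _ (q0 δ α β v) := by
  have hq : cf δ (q0 δ α β v) = cf δ (v 0) ^ 2 - cf δ δ * cf δ α * cf δ (v 1) ^ 2
      - cf δ δ * cf δ β * cf δ (v 2) ^ 2 + cf δ δ * cf δ α * cf δ β * cf δ (v 3) ^ 2 := by
    simp [q0, cf]
  rw [algebraMap_hf, hq, vec_apply, ← om_mul_om]
  apply QuaternionAlgebra.ext
  · simp only [QuaternionAlgebra.re_mul, QuaternionAlgebra.re_star, QuaternionAlgebra.imI_star,
      QuaternionAlgebra.imJ_star, QuaternionAlgebra.imK_star]
    simp only [cf]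
    ring
  · simp only [QuaternionAlgebra.imI_mul, QuaternionAlgebra.re_star, QuaternionAlgebra.imI_star,
      QuaternionAlgebra.imJ_star, QuaternionAlgebra.imK_star]
    ring
  · simp only [QuaternionAlgebra.imJ_mul, QuaternionAlgebra.re_star, QuaternionAlgebra.imI_star,
      QuaternionAlgebra.imJ_star, QuaternionAlgebra.imK_star]
    ring
  · simp only [QuaternionAlgebra.imK_mul, QuaternionAlgebra.re_star, QuaternionAlgebra.imI_star,
      QuaternionAlgebra.imJ_star, QuaternionAlgebra.imK_star]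
    ring

lemma star_mul_vec (v : Fin 4 → K) :
    star (vec δ α β v) * vec δ α β v = algebraMap K _ (q0 δ α β v) := by
  have hq : cf δ (q0 δ α β v) = cf δ (v 0) ^ 2 - cf δ δ * cf δ α * cf δ (v 1) ^ 2
      - cf δ δ * cf δ β * cf δ (v 2) ^ 2 + cf δ δ * cf δ α * cf δ β * cf δ (v 3) ^ 2 := by
    simp [q0, cf]
  rw [algebraMap_hf, hq, vec_apply, ← om_mul_om]
  apply QuaternionAlgebra.ext
  · simp only [QuaternionAlgebra.re_mul, QuaternionAlgebra.re_star, QuaternionAlgebra.imI_star,
      QuaternionAlgebra.imJ_star, QuaternionAlgebra.imK_star]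
    simp only [cf]
    ring
  · simp only [QuaternionAlgebra.imI_mul, QuaternionAlgebra.re_star, QuaternionAlgebra.imI_star,
      QuaternionAlgebra.imJ_star, QuaternionAlgebra.imK_star]
    ring
  · simp only [QuaternionAlgebra.imJ_mul, QuaternionAlgebra.re_star, QuaternionAlgebra.imI_star,
      QuaternionAlgebra.imJ_star, QuaternionAlgebra.imK_star]
    ring
  · simp only [QuaternionAlgebra.imK_mul, QuaternionAlgebra.re_star, QuaternionAlgebra.imI_star,
      QuaternionAlgebra.imJ_star, QuaternionAlgebra.imK_star]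
    ring

end Vale.Agent.P287.H100
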