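import Mathlib

/-!
Morita equivalent algebras of the same dimension are isomorphic, if one of them has enough units.
-/

open CategoryTheory Module
open scoped ModuleCat.Algebra

universe u

namespace Vale.Agent.P287.H100

variable {K : Type u} [Field K] {A B : Type u} [Ring A] [Ring B] [Algebra K A] [Algebra K B]

/-- right multiplication -/
def rmul (A : Type u) [Ring A] (a : A) : ModuleCat.of A A ⟶ ModuleCat.of A A :=
  ModuleCat.ofHom (LinearMap.toSpanSingleton A A a)

lemma rmul_apply (a x : A) : (rmul A a).hom x = x * a := rfl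

lemma rmul_comp (a b : A) : rmul A a ≫ rmul A b = rmul A (a * b) := by
  ext
  simp [rmul]

lemma rmul_add (a b : A) : rmul A (a + b) = rmul A a + rmul A b := by
  ext
  simp [rmul]

lemma rmul_smul (c : K) (a : A) : rmul A (c • a) = c • rmul A a := by
  apply ModuleCat.hom_ext
  apply LinearMap.ext
  intro x
  rw [ModuleCat.hom_smul, LinearMap.smul_apply, rmul_apply, rmul_apply]
  exact mul_smul_comm c x a

lemma rmul_eq_zero {a : A} (h : rmul A a = 0) : a = 0 := by
  have := congrArg (fun f => f.hom (1 : A)) h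
  simpa [rmul] using this

/-- enough units -/
def EnoughUnits (A : Type u) [Ring A] : Prop :=
  ∀ S : Set A, (∀ e : A, (∀ x, x * e = e * x) → e * e = e → ∀ s ∈ S, ∀ t ∈ S,
    e * s + (1 - e) * t ∈ S) → (∀ z : A, (∀ x, x * z = z * x) → z ≠ 0 → ∃ s ∈ S, s * z ≠ 0) →
      ∃ s ∈ S, IsUnit s

lemma linear_apply {C : Type u} [Ring C] [Algebra K C] (G : ModuleCat.{u} B ⥤ ModuleCat.{u} C)
    [G.Linear K] {X Y : ModuleCat.{u} B} (f f' : X ⟶ Y) (c : K)
    (h : ∀ x, f'.hom x = algebraMap K B c • f.hom x) (y : G.obj X) :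
    (G.map f').hom y = algebraMap K C c • (G.map f).hom y := by
  have h1 : f' = (ModuleCat.Algebra.instLinear.homModule X Y : Module K (X ⟶ Y)).smul c f := by
    ext x
    exact h x
  have h2 : G.map f' = (ModuleCat.Algebra.instLinear.homModule (G.obj X) (G.obj Y) :
      Module K (G.obj X ⟶ G.obj Y)).smul c (G.map f) := by
    rw [h1]
    exact Functor.Linear.map_smul (R := K) (F := G) f c
  rw [h2]
  rfl

theorem algEquiv_of_morita [FiniteDimensional K A] [FiniteDimensional K B]
    (hd : finrank K B = finrank K A) (hA : EnoughUnits A) (h : IsMoritaEquivalent K A B) :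
    Nonempty (A ≃ₐ[K] B) := by
  obtain ⟨⟨E⟩⟩ := h
  let F := E.eqv.functor
  let G := E.eqv.inverse
  have hFl : F.Linear K := E.linear
  have hGl : G.Linear K := E.eqv.inverseLinear K
  have hFa : F.Additive := inferInstance
  have hGa : G.Additive := inferInstance
  let P : ModuleCat.{u} A := G.obj (ModuleCat.of B B)
  -- `P` is a generator
  have gen : ∀ z : A, z ≠ 0 → ∃ ψ : P ⟶ ModuleCat.of A A, ∃ p : P, ψ.hom p * z ≠ 0 := by
    intro z hz
    have h1 : F.map (rmul A z) ≠ 0 := by
      intro h0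
      exact hz (rmul_eq_zero ((F.map_eq_zero_iff).mp h0))
    obtain ⟨b, hb⟩ : ∃ b : F.obj (ModuleCat.of A A), (F.map (rmul A z)).hom b ≠ 0 := by
      by_contra hcon
      push Not at hcon
      apply h1
      ext b
      exact hcon b
    let g : ModuleCat.of B B ⟶ F.obj (ModuleCat.of A A) :=
      ModuleCat.ofHom (LinearMap.toSpanSingleton B _ b)
    let adj : G ⊣ F := E.eqv.symm.toAdjunction
    let ψ : P ⟶ ModuleCat.of A A := (adj.homEquiv _ _).symm g
    refine ⟨ψ, ?_⟩
    by_contra hcon
    push Not at hcon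
    have h2 : ψ ≫ rmul A z = 0 := by
      ext p
      exact hcon p
    have h3 : g ≫ F.map (rmul A z) = 0 := by
      have h4 : adj.homEquiv _ _ ψ = g := Equiv.apply_symm_apply _ _
      rw [← h4, ← Adjunction.homEquiv_naturality_right, h2, Adjunction.homEquiv_unit, F.map_zero,
        Limits.comp_zero]
    apply hb
    have h5 := congrArg (fun f => f.hom (1 : B)) h3
    simpa [g] using h5
  -- a unit in the trace
  obtain ⟨s, ⟨ψ, p0, hs⟩, hu⟩ := hA {s | ∃ ψ : P ⟶ ModuleCat.of A A, ∃ p : P, ψ.hom p = s} (by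
    rintro e he hee _ ⟨ψ, p, rfl⟩ _ ⟨ψ', p', rfl⟩
    refine ⟨ψ ≫ rmul A e + ψ' ≫ rmul A (1 - e), e • p + (1 - e) • p', ?_⟩
    have h1 : ∀ x : A, e * x * (1 - e) = 0 := by
      intro x
      rw [mul_sub, mul_one, mul_assoc e x e, he x, ← mul_assoc, hee, sub_self]
    have h5 : (ψ ≫ rmul A e + ψ' ≫ rmul A (1 - e)).hom (e • p + (1 - e) • p') =
      ψ.hom (e • p + (1 - e) • p') * e + ψ'.hom (e • p + (1 - e) • p') * (1 - e) := rfl
    rw [h5]
    simp only [map_add, map_smul]
    change (e * ψ.hom p + (1 - e) * ψ.hom p') * e + (e * ψ'.hom p + (1 - e) * ψ'.hom p') * (1 - e)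
      = e * ψ.hom p + (1 - e) * ψ'.hom p'
    have h2 : (1 - e) * ψ.hom p' * e = 0 := by
      rw [mul_assoc, he, ← mul_assoc, sub_mul, one_mul, hee, sub_self, zero_mul]
    have h3 : e * ψ.hom p * e = e * ψ.hom p := by
      rw [mul_assoc, he, ← mul_assoc, hee]
    have h4 : (1 - e) * ψ'.hom p' * (1 - e) = (1 - e) * ψ'.hom p' := by
      rw [mul_assoc, mul_sub, mul_one, he, mul_sub, ← mul_assoc (1 - e) e, sub_mul 1 e e, one_mul,
        hee, sub_self, zero_mul, sub_zero]
    rw [add_mul, h2, h3, add_mul, h1, h4, add_zero, zero_add]) (by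
    intro z _ hz
    obtain ⟨ψ, p, h1⟩ := gen z hz
    exact ⟨_, ⟨ψ, p, rfl⟩, h1⟩)
  obtain ⟨u, rfl⟩ := hu
  let ψ1 : P ⟶ ModuleCat.of A A := ψ ≫ rmul A (↑u⁻¹ : A)
  have hψ1 : ψ1.hom p0 = (1 : A) := by
    change ψ.hom p0 * (↑u⁻¹ : A) = 1
    rw [hs, Units.mul_inv]
  have hψs : Function.Surjective ψ1.hom := by
    intro a
    refine ⟨a • p0, ?_⟩
    rw [map_smul, hψ1]
    exact mul_one a
  -- the dimension of `P`
  have hT : ∀ (c : K) (b : B) (y : P), (G.map (rmul B (c • b))).hom y =
      algebraMap K A c • (G.map (rmul B b)).hom y := by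
    intro c b y
    apply linear_apply G
    intro x
    change x * (c • b) = algebraMap K B c * (x * b)
    rw [mul_smul_comm, Algebra.smul_def]
  let T : B →ₗ[K] P :=
    { toFun := fun b => (G.map (rmul B b)).hom p0
      map_add' := fun b b' => by
        rw [rmul_add, G.map_add]
        rfl
      map_smul' := fun c b => hT c b p0 }
  have hTs : Function.Surjective T := by
    intro p
    let φ : P ⟶ P := ψ1 ≫ ModuleCat.ofHom (LinearMap.toSpanSingleton A P p)
    obtain ⟨f, hf⟩ := G.map_surjective φ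
    have h1 : f = rmul B (f.hom (1 : B)) := by
      ext
      exact (one_mul (f.hom (1 : B) : B)).symm
    refine ⟨f.hom (1 : B), ?_⟩
    change (G.map (rmul B (f.hom (1 : B)))).hom p0 = p
    rw [← h1, hf]
    change ψ1.hom p0 • p = p
    rw [hψ1]
    exact one_smul A p
  have hPf : FiniteDimensional K P := Module.Finite.of_surjective T hTs
  have hPd : finrank K P ≤ finrank K A := by
    rw [← hd]
    exact LinearMap.finrank_le_finrank_of_surjective hTs
  let ψK : P →ₗ[K] A :=
    { toFun := fun p => ψ1.hom p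
      map_add' := fun p q => map_add ψ1.hom p q
      map_smul' := fun c p => by
        have h1 : ψ1.hom (algebraMap K A c • p) = algebraMap K A c * ψ1.hom p :=
          map_smul ψ1.hom _ _
        rw [RingHom.id_apply, Algebra.smul_def, ← h1]
        rfl }
  have hψKs : Function.Surjective ψK := hψs
  have hPd' : finrank K P = finrank K A :=
    le_antisymm hPd (LinearMap.finrank_le_finrank_of_surjective hψKs)
  have hψKi : Function.Injective ψK :=
    (LinearMap.injective_iff_surjective_of_finrank_eq_finrank hPd').mpr hψKs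
  have hψi : Function.Injective ψ1.hom := hψKi
  let θ : P ≃ₗ[A] A := LinearEquiv.ofBijective ψ1.hom ⟨hψi, hψs⟩
  -- the isomorphism
  have hR : ∀ (b : B) (x : A), θ ((G.map (rmul B b)).hom (θ.symm x)) =
      x * θ ((G.map (rmul B b)).hom (θ.symm 1)) := by
    intro b x
    have h1 : x = x • (1 : A) := (mul_one x).symm
    conv_lhs => rw [h1, map_smul, map_smul, map_smul]
    rfl
  let Λ : B →ₐ[K] A := AlgHom.ofLinearMap
    { toFun := fun b => θ ((G.map (rmul B b)).hom (θ.symm 1))
      map_add' := fun b b' => by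
        rw [rmul_add, G.map_add, ModuleCat.hom_add, LinearMap.add_apply, map_add]
      map_smul' := fun c b => by
        rw [hT, map_smul, RingHom.id_apply, Algebra.smul_def]
        rfl } (by
      change θ ((G.map (rmul B 1)).hom (θ.symm 1)) = 1
      have h1 : rmul B 1 = 𝟙 _ := by
        ext
        simp [rmul]
      rw [h1, G.map_id]
      exact θ.apply_symm_apply 1) (by
      intro b b'
      change θ ((G.map (rmul B (b * b'))).hom (θ.symm 1)) =
        θ ((G.map (rmul B b)).hom (θ.symm 1)) * θ ((G.map (rmul B b')).hom (θ.symm 1))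
      rw [← hR, θ.symm_apply_apply, ← rmul_comp, G.map_comp]
      rfl)
  have hΛi : Function.Injective Λ := by
    rw [injective_iff_map_eq_zero]
    intro b hb
    apply rmul_eq_zero
    apply G.map_injective
    ext x
    obtain ⟨a, rfl⟩ := θ.symm.surjective x
    apply θ.injective
    rw [hR]
    have hb' : θ ((G.map (rmul B b)).hom (θ.symm 1)) = 0 := hb
    rw [hb', mul_zero, G.map_zero]
    exact (map_zero θ).symm
  have hΛs : Function.Surjective Λ :=
    (LinearMap.injective_iff_surjective_of_finrank_eq_finrank (f := Λ.toLinearMap) hd).mp hΛi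
  exact ⟨(AlgEquiv.ofBijective Λ ⟨hΛi, hΛs⟩).symm⟩

end Vale.Agent.P287.H100
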