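import Vale.Agent.P287.H100.Nondeg

/-!
Rationality of smooth cubic fourfolds containing a plane, by means of the even Clifford algebra of
the quadratic form over `K = ℂ(s₀, s₁)` of the quadric surface fibration given by the projection
from the plane.
-/

namespace Vale.Agent.P287.H100.MoritaNet

open MvPolynomial Matrix Vale.Agent.P287

/-- The weights `0, 0, 0, 1` of the four coordinates `y₀, y₁, y₂, 1`. -/
def weight : Fin 4 → ℕ := ![0, 0, 0, 1]

/-- `M` is the matrix of the quadric surface fibration of a cubic fourfold containing the plane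
`x₀ = x₁ = x₂ = 0`: it is symmetric and `M i j` is a form in `x₀, x₁, x₂` of degree
`1 + weight i + weight j`. -/
structure IsFibrationMatrix (M : Matrix (Fin 4) (Fin 4) (MvPolynomial (Fin 3) ℂ)) : Prop where
  symm : M.IsSymm
  homogeneous : ∀ i j, (M i j).IsHomogeneous (1 + weight i + weight j)

/-- The cubic form `∑ M i j (x₀, x₁, x₂) v_i v_j` with `v = (x₃, x₄, x₅, 1)`. -/
noncomputable def cubicForm (M : Matrix (Fin 4) (Fin 4) (MvPolynomial (Fin 3) ℂ)) :
    MvPolynomial (Fin 6) ℂ :=
  ![X 3, X 4, X 5, 1] ⬝ᵥ ((M.map (aeval ![X 0, X 1, X 2])) *ᵥ ![X 3, X 4, X 5, 1])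

/-- The form `F` is smooth: its partial derivatives have no common zero but the origin. -/
def IsSmoothForm (F : MvPolynomial (Fin 6) ℂ) : Prop :=
  ∀ z : Fin 6 → ℂ, (∀ i, eval z (pderiv i F) = 0) → z = 0

/-- The hypersurface `F = 0` is rational: its function field, in the chart `x₀ = 1`, is the field
of rational functions in four variables over `ℂ`. -/
def IsRationalForm (F : MvPolynomial (Fin 6) ℂ) : Prop :=
  Nonempty (FractionRing (MvPolynomial (Fin 5) ℂ ⧸
      Ideal.span {aeval (Fin.cons 1 X : Fin 6 → MvPolynomial (Fin 5) ℂ) F}) ≃ₐ[ℂ]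
    FractionRing (MvPolynomial (Fin 4) ℂ))

/-- The field `K = ℂ(s₀, s₁)`. -/
abbrev K : Type := FractionRing (MvPolynomial (Fin 2) ℂ)

/-- The generic point `(1, s₀, s₁)` of the plane. -/
noncomputable def gen : Fin 3 → K :=
  ![1, algebraMap (MvPolynomial (Fin 2) ℂ) K (X 0), algebraMap (MvPolynomial (Fin 2) ℂ) K (X 1)]

/-- The matrix over `K` of the quadratic form of the fibration. -/
noncomputable def fibMatrix (M : Matrix (Fin 4) (Fin 4) (MvPolynomial (Fin 3) ℂ)) :
    Matrix (Fin 4) (Fin 4) K := M.map (aeval gen)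

/-- The matrix `Q₀ + s₀ Q₁ + s₁ Q₂` over `K` of a net of quadratic forms in six variables. -/
noncomputable def netMatrix (Q : Fin 3 → Matrix (Fin 6) (Fin 6) ℂ) : Matrix (Fin 6) (Fin 6) K :=
  ∑ k, gen k • (Q k).map (algebraMap ℂ K)

/-- The even Clifford algebra of the quadratic form `v ↦ ∑ A i j v_i v_j`. -/
noncomputable abbrev EvenClifford {n : ℕ} (A : Matrix (Fin n) (Fin n) K) : Subalgebra K (CliffordAlgebra
    A.toQuadraticForm') := CliffordAlgebra.even A.toQuadraticForm'

/-- The even Clifford algebra over `K` of the quadratic form of the fibration is Morita equivalent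
to the one of a net of quadratic forms in six variables. -/
def MoritaToNet (M : Matrix (Fin 4) (Fin 4) (MvPolynomial (Fin 3) ℂ)) : Prop :=
  ∃ Q : Fin 3 → Matrix (Fin 6) (Fin 6) ℂ,
    IsMoritaEquivalent K (EvenClifford (fibMatrix M)) (EvenClifford (netMatrix Q))

/-- The quadratic form of the fibration, plus a hyperbolic plane, is similar over `K` to a net of
quadratic forms in six variables. -/
def SimilarToNet (M : Matrix (Fin 4) (Fin 4) (MvPolynomial (Fin 3) ℂ)) : Prop :=
  ∃ (Q : Fin 3 → Matrix (Fin 6) (Fin 6) ℂ) (l : K), l ≠ 0 ∧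
    ∃ φ : ((Fin 4 → K) × K × K) ≃ₗ[K] (Fin 6 → K), ∀ v a b,
      (netMatrix Q).toQuadraticForm' (φ (v, a, b)) =
        l * ((fibMatrix M).toQuadraticForm' v + a * b)

lemma toQuadraticForm'_apply {n : ℕ} (A : Matrix (Fin n) (Fin n) K) (v : Fin n → K) :
    A.toQuadraticForm' v = v ⬝ᵥ (A *ᵥ v) := by
  simp [Matrix.toQuadraticForm', LinearMap.BilinMap.toQuadraticMap_apply,
    Matrix.toLinearMap₂'_apply']

lemma net_eq (Q : Fin 3 → Matrix (Fin 6) (Fin 6) ℂ) (w : Fin 6 → K) :
    (netMatrix Q).toQuadraticForm' w = net Q tvec w := by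
  rw [toQuadraticForm'_apply, netMatrix, Matrix.sum_mulVec, dotProduct_sum, net]
  refine Finset.sum_congr rfl fun k _ => ?_
  rw [Matrix.smul_mulVec, dotProduct_smul, smul_eq_mul]
  congr 1
  simp only [qf, dotProduct, Matrix.mulVec, Matrix.map_apply, Finset.mul_sum]
  refine Finset.sum_congr rfl fun i _ => Finset.sum_congr rfl fun j _ => ?_
  change w i * (algebraMap ℂ K (Q k i j) * w j) = algebraMap ℂ K (Q k i j) * (w i * w j)
  ring

/-- The quadratic form of the fibration of a smooth cubic fourfold is nondegenerate. -/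
lemma nondegenerate_fibMatrix (M : Matrix (Fin 4) (Fin 4) (MvPolynomial (Fin 3) ℂ))
    (hM : IsFibrationMatrix M) (hs : SmoothForm (H925.cubicOf M)) [Invertible (2 : K)] :
    (QuadraticMap.associated (R := K) (fibMatrix M).toQuadraticForm').SeparatingLeft := by
  let τ : (Fin 4 → K) ≃ₗ[K] (Fin 4 → K) := LinearEquiv.funCongrLeft K K H925.perm4
  have h := H100.separatingLeft_of_smooth (H925.cubicOf M)
    (H925.cubicOf_homogeneous M hM.homogeneous) hs (H925.qM M)
    (fun w => by rw [H925.qM_apply, H925.aeval_wvec_cubicOf M hM.homogeneous])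
  have h1 : ∀ w, H925.qM M w = (fibMatrix M).toQuadraticForm' (τ w) := fun w => rfl
  have h2 : ∀ v w, QuadraticMap.associated (R := K) (H925.qM M) v w =
      QuadraticMap.associated (R := K) (fibMatrix M).toQuadraticForm' (τ v) (τ w) := by
    intro v w
    rw [QuadraticMap.associated_apply, QuadraticMap.associated_apply, h1, h1, h1, map_add]
  intro v hv
  have h3 : τ.symm v = 0 := by
    apply h
    intro w
    rw [h2, LinearEquiv.apply_symm_apply]
    exact hv _
  exact τ.symm.map_eq_zero_iff.mp h3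

theorem result (M : Matrix (Fin 4) (Fin 4) (MvPolynomial (Fin 3) ℂ)) (hM : IsFibrationMatrix M)
    (hs : IsSmoothForm (cubicForm M)) :
    (MoritaToNet M → IsRationalForm (cubicForm M)) ∧ (SimilarToNet M → MoritaToNet M) := by
  have hchar : CharZero RatK := charZero_of_injective_algebraMap (algebraMap ℂ RatK).injective
  have : Invertible (2 : RatK) := invertibleOfNonzero two_ne_zero
  have hs' : SmoothForm (H925.cubicOf M) := by
    intro z hz
    apply hs z
    intro i
    rw [H925.eval_eq_aeval]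
    exact hz i
  have hq : ∀ v, (fibMatrix M).toQuadraticForm' v =
      dotProduct v ((M.map (aeval tvec)).mulVec v) := fun v => toQuadraticForm'_apply _ v
  refine ⟨?_, ?_⟩
  · rintro ⟨Q, h⟩
    exact H100.rational_of_morita M hM.homogeneous hs' _ hq Q _ (net_eq Q) h
  · rintro ⟨Q, l, hl, φ, hφ⟩
    exact ⟨Q, H100.morita_of_similar (by simp) _ _ (nondegenerate_fibMatrix M hM hs') l hl φ hφ⟩

end Vale.Agent.P287.H100.MoritaNet
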