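import Vale.Agent.P287.H100.Fourfold

/-!
The quadratic form over `ℂ(s₀, s₁)` of a smooth cubic fourfold containing a plane is nondegenerate.
-/

namespace Vale.Agent.P287.H100

open MvPolynomial Vale.Agent.P287 Vale.Agent.P287.H925 Vale.Agent.P287.H925.NetResult
  Vale.Agent.P287.Theta CliffordAlgebra QuadraticMap

theorem separatingLeft_of_smooth [Invertible (2 : RatK)] (F : MvPolynomial (Fin 6) ℂ)
    (hF : F.IsHomogeneous 3)
    (hs : SmoothForm F) (q : QuadraticForm RatK (Fin 4 → RatK)) (hq : IsFibrationForm F q) :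
    (associated (R := RatK) q).SeparatingLeft := by
  classical
  have hchar : CharZero RatK := charZero_of_injective_algebraMap (algebraMap ℂ RatK).injective
  -- the cubic contains the plane
  obtain ⟨B, hB⟩ := exists_cubic F hF (by
    intro y
    have h1 := hq ![0, algebraMap ℂ RatK (y 0), algebraMap ℂ RatK (y 1), algebraMap ℂ RatK (y 2)]
    have h2 : (wvec tvec ![0, algebraMap ℂ RatK (y 0), algebraMap ℂ RatK (y 1),
        algebraMap ℂ RatK (y 2)] : Fin 6 → RatK) =
        fun i => algebraMap ℂ RatK ((![0, 0, 0, y 0, y 1, y 2] : Fin 6 → ℂ) i) := by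
      funext i
      fin_cases i <;> simp [wvec]
    rw [h2] at h1
    have h3 : aeval (fun i => algebraMap ℂ RatK ((![0, 0, 0, y 0, y 1, y 2] : Fin 6 → ℂ) i)) F =
        algebraMap ℂ RatK (aeval ![0, 0, 0, y 0, y 1, y 2] F) := by
      have := MvPolynomial.comp_aeval_apply (![0, 0, 0, y 0, y 1, y 2] : Fin 6 → ℂ)
        (Algebra.ofId ℂ RatK) F
      exact this.symm
    rw [h3] at h1
    simp only [Matrix.cons_val_zero, zero_mul] at h1
    exact (map_eq_zero (algebraMap ℂ RatK)).mp h1)
  subst hB
  have nd := nondegenerate_of_smooth B hs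
  -- the two descriptions of the quadratic form agree
  have hqq : ∀ v : Fin 4 → RatK, q v = qf (qmat B) v := by
    have h1 : ∀ v : Fin 4 → RatK, v 0 ≠ 0 → q v = qf (qmat B) v := by
      intro v hv
      have := hq v
      rw [aeval_cubic_wvec] at this
      have h2 := mul_left_cancel₀ hv this
      rw [qf_qmat, ← h2]
      simp
    intro v
    by_cases hv : v 0 = 0
    · have e1 := h1 (Pi.single 0 1 + v) (by simp [hv])
      have e2 := h1 (Pi.single 0 1 - v) (by simp [hv])
      have e3 := h1 (Pi.single 0 1) (by simp)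
      have p1 := QuadraticMap.map_add q (Pi.single 0 1) v
      have p2 := QuadraticMap.map_add q (Pi.single 0 1) (-v)
      rw [QuadraticMap.map_neg, QuadraticMap.polar_neg_right] at p2
      rw [sub_eq_add_neg] at e2
      rw [p1, qf_add] at e1
      rw [p2, qf_add] at e2
      have hneg : (-v) = (-1 : RatK) • v := by simp
      rw [hneg, qf_smul, pf_smul_right] at e2
      have : 2 * q v = 2 * qf (qmat B) v := by
        linear_combination e1 + e2 - 2 * e3
      exact mul_left_cancel₀ two_ne_zero this
    · exact h1 v hv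
  intro v hv
  apply nd v
  intro w
  have h1 := hv w
  rw [QuadraticMap.associated_apply, hqq, hqq, hqq, qf_add] at h1
  have h3 : (⅟(2 : RatK)) * pf (qmat B) v w = 0 := by
    have h4 : (⅟(2 : RatK)) • (qf (qmat B) v + qf (qmat B) w + pf (qmat B) v w - qf (qmat B) v -
      qf (qmat B) w) = 0 := h1
    rw [smul_eq_mul] at h4
    linear_combination h4
  refine (mul_eq_zero.mp h3).resolve_left (fun h0 => ?_)
  have h5 := mul_invOf_self (2 : RatK)
  rw [h0, mul_zero] at h5
  exact zero_ne_one h5

end Vale.Agent.P287.H100
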