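import Vale.Agent.P287.H100.Gen
import Vale.Agent.P287.H100.Morita

/-!
The quaternion algebra over `K(√δ)` attached to an anisotropic form has no nonzero element of
reduced norm zero, and it has enough units.
-/

open Module

namespace Vale.Agent.P287.H100

universe u

variable {K : Type u} [Field K] {δ α β : K}

/-- the reduced norm -/
def nr (x : Hf δ α β) : Zf δ :=
  x.re ^ 2 - cf δ α * x.imI ^ 2 - cf δ β * x.imJ ^ 2 + cf δ α * cf δ β * x.imK ^ 2

lemma mul_star_eq (x : Hf δ α β) : x * star x = cen δ α β (nr x) := by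
  apply QuaternionAlgebra.ext
  · simp only [QuaternionAlgebra.re_mul, QuaternionAlgebra.re_star, QuaternionAlgebra.imI_star,
      QuaternionAlgebra.imJ_star, QuaternionAlgebra.imK_star, cen, nr, cf]
    ring
  · simp only [QuaternionAlgebra.imI_mul, QuaternionAlgebra.re_star, QuaternionAlgebra.imI_star,
      QuaternionAlgebra.imJ_star, QuaternionAlgebra.imK_star, cen]
    ring
  · simp only [QuaternionAlgebra.imJ_mul, QuaternionAlgebra.re_star, QuaternionAlgebra.imI_star,
      QuaternionAlgebra.imJ_star, QuaternionAlgebra.imK_star, cen]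
    ring
  · simp only [QuaternionAlgebra.imK_mul, QuaternionAlgebra.re_star, QuaternionAlgebra.imI_star,
      QuaternionAlgebra.imJ_star, QuaternionAlgebra.imK_star, cen]
    ring

lemma star_mul_eq (x : Hf δ α β) : star x * x = cen δ α β (nr x) := by
  apply QuaternionAlgebra.ext
  · simp only [QuaternionAlgebra.re_mul, QuaternionAlgebra.re_star, QuaternionAlgebra.imI_star,
      QuaternionAlgebra.imJ_star, QuaternionAlgebra.imK_star, cen, nr, cf]
    ring
  · simp only [QuaternionAlgebra.imI_mul, QuaternionAlgebra.re_star, QuaternionAlgebra.imI_star,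
      QuaternionAlgebra.imJ_star, QuaternionAlgebra.imK_star, cen]
    ring
  · simp only [QuaternionAlgebra.imJ_mul, QuaternionAlgebra.re_star, QuaternionAlgebra.imI_star,
      QuaternionAlgebra.imJ_star, QuaternionAlgebra.imK_star, cen]
    ring
  · simp only [QuaternionAlgebra.imK_mul, QuaternionAlgebra.re_star, QuaternionAlgebra.imI_star,
      QuaternionAlgebra.imJ_star, QuaternionAlgebra.imK_star, cen]
    ring

lemma nr_cen_mul (z : Zf δ) (x : Hf δ α β) : nr (cen δ α β z * x) = z ^ 2 * nr x := by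
  rw [cen_mul, nr, nr]
  ring

lemma cen_mul_cen (z w : Zf δ) : cen δ α β z * cen δ α β w = cen δ α β (z * w) := by
  rw [cen_mul]
  apply QuaternionAlgebra.ext <;> simp [cen]

lemma cen_one : cen δ α β 1 = 1 := by
  apply QuaternionAlgebra.ext <;> simp [cen]

lemma cen_injective {z w : Zf δ} (h : cen δ α β z = cen δ α β w) : z = w :=
  congrArg QuaternionAlgebra.re h

lemma isUnit_of_nr {x : Hf δ α β} (h : IsUnit (nr x)) : IsUnit x := by
  obtain ⟨w, hw⟩ := h.exists_right_inv
  refine ⟨⟨x, star x * cen δ α β w, ?_, ?_⟩, rfl⟩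
  · rw [← mul_assoc, mul_star_eq, cen_mul_cen, hw, cen_one]
  · rw [mul_assoc, ← mul_cen w x, ← mul_assoc, star_mul_eq, cen_mul_cen, hw, cen_one]

lemma isUnit_zf {z : Zf δ} (h : z.re ^ 2 - δ * z.im ^ 2 ≠ 0) : IsUnit z := by
  have h1 : z * star z = cf δ (z.re ^ 2 - δ * z.im ^ 2) := by
    have h3 : cf δ (z.re ^ 2 - δ * z.im ^ 2) = ⟨z.re ^ 2 - δ * z.im ^ 2, 0⟩ := by
      ext <;> rfl
    rw [h3]
    ext
    · simp
      ring
    · simp
      ring
  have h2 : IsUnit (z * star z) := by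
    rw [h1]
    exact (isUnit_iff_ne_zero.mpr h).map (algebraMap K (Zf δ))
  exact isUnit_of_mul_isUnit_left h2

/-- the quaternion norm form is anisotropic -/
lemma quat_anisotropic (h2 : (2 : K) ≠ 0) (hα : α ≠ 0) (hβ : β ≠ 0)
    (han : ∀ v, q0 δ α β v = 0 → v = 0) (c0 c1 c2 c3 : K)
    (hc : c0 ^ 2 - α * c1 ^ 2 - β * c2 ^ 2 + α * β * c3 ^ 2 = 0) :
    c0 = 0 ∧ c1 = 0 ∧ c2 = 0 ∧ c3 = 0 := by
  have e1 := han ![0, c0 ^ 2 - α * c1 ^ 2 - α * β * c3 ^ 2 + β * c2 ^ 2,
    -2 * α * c1 * c2 - 2 * α * c0 * c3, -2 * α * c1 * c3 - 2 * c0 * c2] (by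
      simp only [q0, Matrix.cons_val_zero, Matrix.cons_val_one, Matrix.cons_val]
      linear_combination (-δ * α) * (c0 ^ 2 - α * c1 ^ 2 - β * c2 ^ 2 + α * β * c3 ^ 2) * hc)
  have e2 := han ![0, -2 * β * c1 * c2 + 2 * β * c0 * c3,
    c0 ^ 2 - β * c2 ^ 2 - α * β * c3 ^ 2 + α * c1 ^ 2, -2 * β * c2 * c3 + 2 * c0 * c1] (by
      simp only [q0, Matrix.cons_val_zero, Matrix.cons_val_one, Matrix.cons_val]
      linear_combination (-δ * β) * (c0 ^ 2 - α * c1 ^ 2 - β * c2 ^ 2 + α * β * c3 ^ 2) * hc)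
  have k1 := congrFun e1 1
  have k2 := congrFun e2 2
  simp only [Matrix.cons_val_one, Matrix.cons_val, Pi.zero_apply, Matrix.cons_val_zero] at k1 k2
  have m1 : c0 ^ 2 = α * c1 ^ 2 := by
    have : 2 * (c0 ^ 2 - α * c1 ^ 2) = 0 := by linear_combination k1 + hc
    linear_combination (mul_eq_zero.mp this).resolve_left h2
  have m2 : c0 ^ 2 = β * c2 ^ 2 := by
    have : 2 * (c0 ^ 2 - β * c2 ^ 2) = 0 := by linear_combination k2 + hc
    linear_combination (mul_eq_zero.mp this).resolve_left h2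
  have e3 := han ![0, 2 * α * β * c1 * c3 - 2 * β * c0 * c2,
    2 * α * β * c2 * c3 + 2 * α * c0 * c1,
    α * β * c3 ^ 2 + β * c2 ^ 2 + α * c1 ^ 2 + c0 ^ 2] (by
      simp only [q0, Matrix.cons_val_zero, Matrix.cons_val_one, Matrix.cons_val]
      linear_combination (δ * α * β) * (c0 ^ 2 - α * c1 ^ 2 - β * c2 ^ 2 + α * β * c3 ^ 2) * hc)
  have k3 := congrFun e3 3
  simp only [Matrix.cons_val, Pi.zero_apply] at k3
  have m0 : c0 = 0 := by
    have h3 : 2 * (c0 ^ 2 + α * β * c3 ^ 2) = 0 := by linear_combination k3 + hc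
    have h4 := (mul_eq_zero.mp h3).resolve_left h2
    have h5 : 2 * c0 ^ 2 = 0 := by linear_combination h4 - hc + m1 + m2
    exact pow_eq_zero_iff two_ne_zero |>.mp ((mul_eq_zero.mp h5).resolve_left h2)
  subst m0
  refine ⟨rfl, ?_, ?_, ?_⟩
  · have h3 : α * c1 ^ 2 = 0 := by linear_combination -m1
    exact pow_eq_zero_iff two_ne_zero |>.mp ((mul_eq_zero.mp h3).resolve_left hα)
  · have h3 : β * c2 ^ 2 = 0 := by linear_combination -m2
    exact pow_eq_zero_iff two_ne_zero |>.mp ((mul_eq_zero.mp h3).resolve_left hβ)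
  · have h3 : α * β * c3 ^ 2 = 0 := by linear_combination hc - m1 - m2
    exact pow_eq_zero_iff two_ne_zero |>.mp ((mul_eq_zero.mp h3).resolve_left (mul_ne_zero hα hβ))

lemma nr_re (x : Hf δ α β) : (nr x).re =
    (x.re.re ^ 2 - α * x.imI.re ^ 2 - β * x.imJ.re ^ 2 + α * β * x.imK.re ^ 2) +
    δ * (x.re.im ^ 2 - α * x.imI.im ^ 2 - β * x.imJ.im ^ 2 + α * β * x.imK.im ^ 2) := by
  have h3 : ∀ a : K, cf δ a = ⟨a, 0⟩ := fun a => by ext <;> rfl
  rw [nr, h3, h3]
  simp [pow_two]
  ring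

lemma nr_im (x : Hf δ α β) : (nr x).im =
    2 * (x.re.re * x.re.im - α * x.imI.re * x.imI.im - β * x.imJ.re * x.imJ.im +
      α * β * x.imK.re * x.imK.im) := by
  have h3 : ∀ a : K, cf δ a = ⟨a, 0⟩ := fun a => by ext <;> rfl
  rw [nr, h3, h3]
  simp [pow_two]
  ring

theorem eq_zero_of_nr (h2 : (2 : K) ≠ 0) (hδ : δ ≠ 0) (hα : α ≠ 0) (hβ : β ≠ 0)
    (han : ∀ v, q0 δ α β v = 0 → v = 0) (x : Hf δ α β) (hx : nr x = 0) : x = 0 := by
  have hre := nr_re x
  have him := nr_im x
  rw [hx, QuadraticAlgebra.re_zero] at hre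
  rw [hx, QuadraticAlgebra.im_zero] at him
  obtain ⟨⟨a0, b0⟩, ⟨a1, b1⟩, ⟨a2, b2⟩, ⟨a3, b3⟩⟩ := x
  simp only at hre him
  have him' := (mul_eq_zero.mp him.symm).resolve_left h2
  have e1 := han ![δ * (b0 ^ 2 - α * b1 ^ 2 - β * b2 ^ 2 + α * β * b3 ^ 2),
    -a0 * b1 + a1 * b0 + β * a2 * b3 - β * a3 * b2,
    -a0 * b2 - α * a1 * b3 + a2 * b0 + α * a3 * b1,
    -a0 * b3 - a1 * b2 + a2 * b1 + a3 * b0] (by
      simp only [q0, Matrix.cons_val_zero, Matrix.cons_val_one, Matrix.cons_val]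
      linear_combination (-δ) * (b0 ^ 2 - α * b1 ^ 2 - β * b2 ^ 2 + α * β * b3 ^ 2) * hre -
        δ * (a0 * b0 - α * a1 * b1 - β * a2 * b2 + α * β * a3 * b3) * him')
  have k0 := congrFun e1 0
  simp only [Matrix.cons_val_zero, Pi.zero_apply] at k0
  have hb := (mul_eq_zero.mp k0).resolve_left hδ
  have ha : a0 ^ 2 - α * a1 ^ 2 - β * a2 ^ 2 + α * β * a3 ^ 2 = 0 := by
    linear_combination -hre - δ * hb
  obtain ⟨rfl, rfl, rfl, rfl⟩ := quat_anisotropic h2 hα hβ han _ _ _ _ ha
  obtain ⟨rfl, rfl, rfl, rfl⟩ := quat_anisotropic h2 hα hβ han _ _ _ _ hb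
  rfl

theorem enoughUnits (h2 : (2 : K) ≠ 0) (hδ : δ ≠ 0) (hα : α ≠ 0) (hβ : β ≠ 0)
    (han : ∀ v, q0 δ α β v = 0 → v = 0) : EnoughUnits (Hf δ α β) := by
  intro S hS hz
  by_cases hsq : ∃ d, d ^ 2 = δ
  · obtain ⟨d, hd⟩ := hsq
    have hd0 : d ≠ 0 := by
      rintro rfl
      apply hδ
      rw [← hd]
      ring
    -- the idempotents
    let e : Zf δ := ⟨2⁻¹, 2⁻¹ * d⁻¹⟩
    have he : e * e = e := by
      ext
      · simp [e, ← hd]
        field_simp
        norm_num
      · simp [e]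
        field_simp
        norm_num
    have he1 : ∀ z : Zf δ, z * e = cf δ (z.re + d * z.im) * e := by
      intro z
      have h3 : ∀ a : K, cf δ a = ⟨a, 0⟩ := fun a => by ext <;> rfl
      rw [h3]
      ext
      · simp [e, ← hd]
        field_simp
      · simp [e]
        field_simp
    have he2 : ∀ z : Zf δ, z * (1 - e) = cf δ (z.re - d * z.im) * (1 - e) := by
      intro z
      have h3 : ∀ a : K, cf δ a = ⟨a, 0⟩ := fun a => by ext <;> rfl
      rw [h3]
      ext
      · simp [e, ← hd, QuadraticAlgebra.re_one, QuadraticAlgebra.im_one]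
        field_simp
        ring
      · simp [e, QuadraticAlgebra.re_one, QuadraticAlgebra.im_one]
        field_simp
        ring
    have hne : e ≠ 0 := by
      intro h
      have := congrArg QuadraticAlgebra.re h
      simp [e, h2] at this
    have hne' : 1 - e ≠ 0 := by
      intro h
      have := congrArg QuadraticAlgebra.im h
      simp [e, h2, hd0, QuadraticAlgebra.im_one] at this
    have hcz : ∀ z : Zf δ, z ≠ 0 → cen δ α β z ≠ 0 := fun z hz h => hz (congrArg
      QuaternionAlgebra.re h)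
    obtain ⟨s, hs, hse⟩ := hz (cen δ α β e) (fun x => mul_cen _ _) (hcz _ hne)
    obtain ⟨t, ht, hte⟩ := hz (cen δ α β (1 - e)) (fun x => mul_cen _ _) (hcz _ hne')
    have h1e : (1 : Hf δ α β) - cen δ α β e = cen δ α β (1 - e) := by
      apply QuaternionAlgebra.ext <;> simp [cen]
    have hee' : e * (1 - e) = 0 := by rw [mul_sub, he, mul_one, sub_self]
    have hmem := hS (cen δ α β e) (fun x => mul_cen _ _) (by rw [cen_mul_cen, he]) s hs t ht
    rw [h1e] at hmem
    refine ⟨_, hmem, isUnit_of_nr (isUnit_zf ?_)⟩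
    set w := cen δ α β e * s + cen δ α β (1 - e) * t with hw
    have hwe : cen δ α β e * w = cen δ α β e * s := by
      rw [hw, mul_add, ← mul_assoc, ← mul_assoc, cen_mul_cen, cen_mul_cen, he, hee']
      have : cen δ α β (0 : Zf δ) = 0 := rfl
      rw [this, zero_mul, add_zero]
    have hwe' : cen δ α β (1 - e) * w = cen δ α β (1 - e) * t := by
      have h5 : (1 - e) * (1 - e) = 1 - e := by rw [mul_sub, mul_one, mul_comm, hee', sub_zero]
      rw [hw, mul_add, ← mul_assoc, ← mul_assoc, cen_mul_cen, cen_mul_cen, h5, mul_comm, hee']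
      have : cen δ α β (0 : Zf δ) = 0 := rfl
      rw [this, zero_mul, zero_add]
    have n1 : nr w * e ≠ 0 := by
      intro h0
      apply hse
      rw [mul_cen, ← hwe]
      apply eq_zero_of_nr h2 hδ hα hβ han
      rw [nr_cen_mul, pow_two, he, mul_comm, h0]
    have n2 : nr w * (1 - e) ≠ 0 := by
      intro h0
      have h5 : (1 - e) * (1 - e) = 1 - e := by rw [mul_sub, mul_one, mul_comm, hee', sub_zero]
      apply hte
      rw [mul_cen, ← hwe']
      apply eq_zero_of_nr h2 hδ hα hβ han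
      rw [nr_cen_mul, pow_two, h5, mul_comm, h0]
    rw [he1] at n1
    rw [he2] at n2
    have m1 : (nr w).re + d * (nr w).im ≠ 0 := by
      intro h0
      apply n1
      rw [h0, cf_zero, zero_mul]
    have m2 : (nr w).re - d * (nr w).im ≠ 0 := by
      intro h0
      apply n2
      rw [h0, cf_zero, zero_mul]
    have := mul_ne_zero m1 m2
    intro h0
    apply this
    linear_combination h0 - (nr w).im ^ 2 * hd
  · obtain ⟨s, hs, hs1⟩ := hz 1 (fun x => by rw [mul_one, one_mul]) one_ne_zero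
    rw [mul_one] at hs1
    refine ⟨s, hs, isUnit_of_nr (isUnit_zf ?_)⟩
    intro h0
    have hn : nr s ≠ 0 := fun h => hs1 (eq_zero_of_nr h2 hδ hα hβ han s h)
    by_cases him : (nr s).im = 0
    · rw [him] at h0
      have : (nr s).re = 0 := by
        have : (nr s).re ^ 2 = 0 := by linear_combination h0
        exact pow_eq_zero_iff two_ne_zero |>.mp this
      apply hn
      ext
      · exact this
      · exact him
    · apply hsq
      refine ⟨(nr s).re / (nr s).im, ?_⟩
      field_simp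
      linear_combination h0

end Vale.Agent.P287.H100
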