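import Vale.Agent.P287.H100.Reduced

/-!
Automorphisms of the quaternion algebra over `K(√δ)` which fix `√δ` are inner.
-/

open Module

namespace Vale.Agent.P287.H100

universe u

variable {K : Type u} [Field K] {δ α β : K}

lemma rII (x : Hf δ α β) : x * qI δ α β * qI δ α β = α • x := by
  rw [mul_assoc, qI_mul_qI, ← Algebra.commutes, Algebra.smul_def]
lemma rJJ (x : Hf δ α β) : x * qJ δ α β * qJ δ α β = β • x := by
  rw [mul_assoc, qJ_mul_qJ, ← Algebra.commutes, Algebra.smul_def]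
lemma rKK (x : Hf δ α β) : x * qK δ α β * qK δ α β = -((α * β) • x) := by
  rw [mul_assoc, qK_mul_qK, ← Algebra.commutes, ← Algebra.smul_def, neg_smul]
lemma rIJ (x : Hf δ α β) : x * qI δ α β * qJ δ α β = x * qK δ α β := by
  rw [mul_assoc, qI_mul_qJ]
lemma rJI (x : Hf δ α β) : x * qJ δ α β * qI δ α β = -(x * qK δ α β) := by
  rw [mul_assoc, qJ_mul_qI, mul_neg]
lemma rIK (x : Hf δ α β) : x * qI δ α β * qK δ α β = α • (x * qJ δ α β) := by
  rw [mul_assoc, qI_mul_qK, ← Algebra.smul_def, mul_smul_comm]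
lemma rKI (x : Hf δ α β) : x * qK δ α β * qI δ α β = -(α • (x * qJ δ α β)) := by
  rw [mul_assoc, qK_mul_qI, ← Algebra.smul_def, mul_neg, mul_smul_comm]
lemma rJK (x : Hf δ α β) : x * qJ δ α β * qK δ α β = -(β • (x * qI δ α β)) := by
  rw [mul_assoc, qJ_mul_qK, ← Algebra.smul_def, mul_neg, mul_smul_comm]
lemma rKJ (x : Hf δ α β) : x * qK δ α β * qJ δ α β = β • (x * qI δ α β) := by
  rw [mul_assoc, qK_mul_qJ, ← Algebra.smul_def, mul_smul_comm]

variable (θ : Hf δ α β →ₐ[K] Hf δ α β)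

/-- the averaging operator -/
def gav (c : Hf δ α β) : Hf δ α β :=
  (α * β) • c + β • (θ (qI δ α β) * c * qI δ α β) + α • (θ (qJ δ α β) * c * qJ δ α β) -
    θ (qK δ α β) * c * qK δ α β

lemma tII : θ (qI δ α β) * θ (qI δ α β) = α • 1 := by
  rw [← map_mul, qI_mul_qI, AlgHom.commutes, Algebra.smul_def, mul_one]
lemma tJJ : θ (qJ δ α β) * θ (qJ δ α β) = β • 1 := by
  rw [← map_mul, qJ_mul_qJ, AlgHom.commutes, Algebra.smul_def, mul_one]
lemma tIJ : θ (qI δ α β) * θ (qJ δ α β) = θ (qK δ α β) := by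
  rw [← map_mul, qI_mul_qJ]
lemma tJI : θ (qJ δ α β) * θ (qI δ α β) = - θ (qK δ α β) := by
  rw [← map_mul, qJ_mul_qI, map_neg]
lemma tIK : θ (qI δ α β) * θ (qK δ α β) = α • θ (qJ δ α β) := by
  rw [← map_mul, qI_mul_qK, map_mul, AlgHom.commutes, Algebra.smul_def]
lemma tJK : θ (qJ δ α β) * θ (qK δ α β) = - (β • θ (qI δ α β)) := by
  rw [← map_mul, qJ_mul_qK, map_neg, map_mul, AlgHom.commutes, Algebra.smul_def]

lemma gav_I (c : Hf δ α β) : θ (qI δ α β) * gav θ c = gav θ c * qI δ α β := by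
  simp only [gav, mul_add, mul_sub, add_mul, sub_mul, mul_smul_comm, smul_mul_assoc, rII, rJI, rKI,
    ← mul_assoc, tII, tIJ, tIK, one_mul]
  module

lemma gav_J (c : Hf δ α β) : θ (qJ δ α β) * gav θ c = gav θ c * qJ δ α β := by
  simp only [gav, mul_add, mul_sub, add_mul, sub_mul, mul_smul_comm, smul_mul_assoc, rIJ, rJJ, rKJ,
    ← mul_assoc, tJJ, tJI, tJK, one_mul, neg_mul]
  module

lemma gav_sum : (α * β) • gav θ 1 + β • (gav θ (qI δ α β) * qI δ α β) +
    α • (gav θ (qJ δ α β) * qJ δ α β) - gav θ (qK δ α β) * qK δ α β =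
    (4 * (α * β) ^ 2) • (1 : Hf δ α β) := by
  have k1 : qI δ α β * qI δ α β = α • 1 := by
    rw [qI_mul_qI, Algebra.smul_def, mul_one]
  have k2 : qJ δ α β * qJ δ α β = β • 1 := by
    rw [qJ_mul_qJ, Algebra.smul_def, mul_one]
  have k3 : qK δ α β * qK δ α β = -((α * β) • 1) := by
    rw [qK_mul_qK, Algebra.smul_def, mul_one, map_neg]
  simp only [gav, add_mul, sub_mul, smul_mul_assoc, rII, rIJ, rIK, rJI, rJJ, rJK,
    rKI, rKJ, rKK, mul_one, k1, k2, k3, neg_mul]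
  module

theorem exists_inner (h2 : (2 : K) ≠ 0) (hδ : δ ≠ 0) (hα : α ≠ 0) (hβ : β ≠ 0)
    (han : ∀ v, q0 δ α β v = 0 → v = 0) (hθ : θ (qO δ α β) = qO δ α β) :
    ∃ u, IsUnit u ∧ ∀ x, θ x * u = u * x := by
  obtain ⟨u, ⟨hI, hJ⟩, hu⟩ := enoughUnits h2 hδ hα hβ han
    {u | θ (qI δ α β) * u = u * qI δ α β ∧ θ (qJ δ α β) * u = u * qJ δ α β} (by
    rintro e he hee s ⟨hsI, hsJ⟩ t ⟨htI, htJ⟩
    have h1 : ∀ x, x * (1 - e) = (1 - e) * x := by
      intro x
      rw [mul_sub, sub_mul, he, mul_one, one_mul]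
    constructor
    · rw [mul_add, add_mul, ← mul_assoc, ← mul_assoc, he, h1, mul_assoc, mul_assoc, hsI, htI,
        mul_assoc, mul_assoc]
    · rw [mul_add, add_mul, ← mul_assoc, ← mul_assoc, he, h1, mul_assoc, mul_assoc, hsJ, htJ,
        mul_assoc, mul_assoc]) (by
    intro z hz hz0
    by_contra hcon
    push Not at hcon
    have hc : ∀ c, gav θ c * z = 0 := fun c => hcon _ ⟨gav_I θ c, gav_J θ c⟩
    have h1 := congrArg (fun y => y * z) (gav_sum θ)
    simp only [add_mul, sub_mul, smul_mul_assoc, one_mul] at h1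
    have h3 : ∀ c d, gav θ c * d * z = 0 := by
      intro c d
      rw [mul_assoc, hz, ← mul_assoc, hc, zero_mul]
    rw [h3, h3, h3, hc, smul_zero, smul_zero, smul_zero] at h1
    apply hz0
    have h4 : (4 : K) ≠ 0 := by
      have : (4 : K) = 2 * 2 := by norm_num
      rw [this]
      exact mul_ne_zero h2 h2
    rw [add_zero, add_zero, sub_zero] at h1
    exact (smul_eq_zero.mp h1.symm).resolve_left
      (mul_ne_zero h4 (pow_ne_zero 2 (mul_ne_zero hα hβ))))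
  refine ⟨u, hu, ?_⟩
  have hK : θ (qK δ α β) * u = u * qK δ α β := by
    rw [← qI_mul_qJ, map_mul, mul_assoc, hJ, ← mul_assoc, hI, mul_assoc]
  have hcen : ∀ z, θ (cen δ α β z) = cen δ α β z := by
    intro z
    rw [cen_eq, map_add, map_mul, AlgHom.commutes, AlgHom.commutes, hθ]
  intro x
  rw [hf_eta x]
  simp only [map_add, map_mul, hcen, add_mul, mul_add]
  rw [mul_assoc _ _ u, mul_assoc _ _ u, mul_assoc _ _ u, hI, hJ, hK, ← mul_cen _ u]
  simp only [← mul_assoc, ← mul_cen _ u]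

end Vale.Agent.P287.H100
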